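import Vale.Agent.P092.H962.C.Amp
import Vale.Agent.P092.SD.Blocks

/-!
P092, TEAM D, all amplifications (helper958): the leg `SD.LegS` with a finite family of vectors in
the place of the trace vector, and its amplification `K ⊗ ℂ^Q`, which has one vector.
-/

set_option linter.all false

open scoped InnerProductSpace ENNReal LinearAlgebra.Projectivization ZeroAtInfty
open Filter Topology ContinuousLinearMap MeasureTheory TopologicalSpace

namespace Vale.Agent.P092.SD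

open Vale.Agent.P092.RC Vale.Agent.P092.H333.Amp
open Vale.Agent.P092.H820 (inc3)

/-! ### Definitions -/

section defs

variable {k : Type} [NontriviallyNormedField k] [ProperSpace k] {G Γ K ι : Type} [Group G]
  [TopologicalSpace G] [Group Γ] [NormedAddCommGroup K] [InnerProductSpace ℂ K] [CompleteSpace K]
  [Fintype ι]

/-- `SD.Ms` for a family of vectors -/
structure MsF (lam : Γ →* (K →L[ℂ] K)) (W : Set (K →L[ℂ] K)) (Ω : ι → K)
    (m : Set Γ → (K →L[ℂ] K)) : Prop where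
  adj : ∀ S, adjoint (m S) = m S
  inf : ∀ S T, m (S ∩ T) = m S * m T
  compl : ∀ S, m Sᶜ = 1 - m S
  cm : ∀ S, Cm W (m S)
  cov : ∀ γ S, lam γ * m S * lam γ⁻¹ = m ((fun x => γ * x) '' S)
  om : ∀ i, m {1} (Ω i) = Ω i
  fin : ∀ ξ, ∀ ε > 0, ∃ F : Finset Γ, ‖m ((F : Set Γ))ᶜ ξ‖ ≤ ε
  cyc : ∀ ξ, m {1} ξ = ξ →
    ξ ∈ closure (Submodule.span ℂ {η | ∃ i, ∃ w ∈ StarAlgebra.adjoin ℂ W, η = w (Ω i)} : Set K)

/-- `SD.ORB` for a family of vectors -/
def ORBF [MeasurableSpace k] (μ : Measure k) (w : kˣ) (π : G3 k →* (K →L[ℂ] K))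
    (lam : Γ →* (K →L[ℂ] K)) (W : Set (K →L[ℂ] K)) (Ω : ι → K) : Prop :=
  ∀ i, ∀ g : G3 k, ∀ δ > 0, ∃ C : ℝ, ∀ N : ℕ, ∀ T, Cm W T → ‖T‖ ≤ 1 →
    ∫⁻ s in Metric.closedBall (0 : k) 1, ‖T (π (g * bw w ^ N * un s * g⁻¹)⁻¹ (Ω i))‖ₑ ^ 2 ∂μ ≤
      ENNReal.ofReal (C * ‖(w : k)‖ ^ (3 * N)) * TRNF lam Ω T + ENNReal.ofReal δ

/-- `SD.LegS` for a family of vectors -/
structure LegF [MeasurableSpace k] (μ : Measure k) (w : kˣ) (π : G3 k →* (K →L[ℂ] K))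
    (lam : Γ →* (K →L[ℂ] K)) (W : Set (K →L[ℂ] K)) (Ω : ι → K) (m : Set Γ → (K →L[ℂ] K))
    (q : Γ →* G3 k) (E F : PP k → (CP k →⋆ₐ[ℂ] (K →L[ℂ] K))) : Prop where
  hw : ‖(w : k)‖ < 1
  pic : PicF π lam W Ω
  ms : MsF lam W Ω m
  inj : Function.Injective q
  disc : ∀ C : ℝ, {γ : Γ | nm (q γ) ≤ C}.Finite
  uc : ∀ i, UC π W (Ω i) m
  orb : ORBF μ w π lam W Ω
  size : ∀ i, SIZE w π (Ω i) m q
  nws : ∀ i, NWS w π (Ω i) m q
  e : EFam w π lam W m q E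
  f : EFam w (π.comp (tau k)) lam W m ((tau k).comp q) F

/-- `SD.TV` for a family of vectors -/
def TVF (π : G3 k →* (K →L[ℂ] K)) (lam : Γ →* (K →L[ℂ] K)) (W : Set (K →L[ℂ] K)) (Ω : ι → K) :
    Prop :=
  ∀ Y ∈ MM lam W, ∀ h : G3 k, ∑ i, ⟪π h (Ω i), Y (π h (Ω i))⟫_ℂ = ∑ i, ⟪Ω i, Y (Ω i)⟫_ℂ

/-- `RC.Pic2` without `Xcomm` -/
structure Pic2W (π : G →* (K →L[ℂ] K)) (lam₁ lam₂ : Γ →* (K →L[ℂ] K)) (X : Set (K →L[ℂ] K))
    (Ω : K) : Prop where
  leg₁ : Pic π lam₁ (X ∪ Set.range lam₂) Ω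
  leg₂ : Pic π lam₂ (X ∪ Set.range lam₁) Ω
  Xadj : ∀ x ∈ X, adjoint x ∈ X
  XP : ∀ x ∈ X, ∀ g, π g * x * π g⁻¹ ∈ X

end defs

/-! ### The amplification -/

section amp

variable {k : Type} [NontriviallyNormedField k] [ProperSpace k] {Γ K ι Q : Type}
  [Group Γ] [NormedAddCommGroup K] [InnerProductSpace ℂ K] [CompleteSpace K] [Fintype ι] [Group Q]
  [Fintype Q]

/-- `E ⊗ 1` -/
noncomputable def ampE (Q : Type) [Group Q] [Fintype Q] (E : CP k →⋆ₐ[ℂ] (K →L[ℂ] K)) :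
    CP k →⋆ₐ[ℂ] (KT Q K →L[ℂ] KT Q K) := (ampS Q K).comp E

theorem ampE_ap (E : CP k →⋆ₐ[ℂ] (K →L[ℂ] K)) (f : CP k) : ampE Q E f = amp (E f) := rfl

/-- The norm of an amplified operator on the vector of a family. -/
theorem norm_amp_le (j : ι ↪ Q) (Ω : ι → K) {T : K →L[ℂ] K} {δ : ℝ} (hδ : 0 ≤ δ)
    (h : ∀ i, ‖T (Ω i)‖ ≤ δ / (Fintype.card ι + 1)) :
    ‖H333.Amp.amp (Q := Q) T (ampO j Ω)‖ ≤ δ := by
  have h1 : ‖H333.Amp.amp (Q := Q) T (ampO j Ω)‖ ^ 2 = ∑ i, ‖T (Ω i)‖ ^ 2 := by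
    rw [norm_sq_KT]
    exact sum_ampO j Ω (fun v => ‖T v‖ ^ 2) (by simp)
  obtain ⟨n, hn⟩ : ∃ n : ℝ, n = Fintype.card ι := ⟨_, rfl⟩
  have hn0 : 0 ≤ n := by rw [hn]; exact Nat.cast_nonneg _
  have h2 : ∑ i, ‖T (Ω i)‖ ^ 2 ≤ n * (δ / (n + 1)) ^ 2 := by
    calc ∑ i, ‖T (Ω i)‖ ^ 2 ≤ ∑ _i : ι, (δ / (n + 1)) ^ 2 := by
          refine Finset.sum_le_sum fun i _ => ?_
          refine pow_le_pow_left₀ (norm_nonneg _) ?_ 2
          rw [hn]; exact h i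
      _ = n * (δ / (n + 1)) ^ 2 := by
          rw [Finset.sum_const, Finset.card_univ, nsmul_eq_mul, hn]
  have h3 : n * (δ / (n + 1)) ^ 2 ≤ δ ^ 2 := by
    rw [div_pow, mul_div_assoc', div_le_iff₀ (by positivity)]
    nlinarith [sq_nonneg δ, mul_nonneg hn0 (sq_nonneg δ), mul_nonneg (mul_nonneg hn0 hn0)
      (sq_nonneg δ)]
  refine abs_le_of_sq_le_sq' ?_ hδ |>.2
  rw [h1]
  exact h2.trans h3

/-- The same for any vector of `K ⊗ ℂ^Q`. -/
theorem norm_le_coord {v u : KT Q K} {c ε : ℝ} (hc : 0 ≤ c) (hε : 0 ≤ ε)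
    (h : ∀ x, ‖v x‖ ≤ c * ‖u x‖ + ε / (Fintype.card Q + 1)) : ‖v‖ ≤ c * ‖u‖ + ε := by
  obtain ⟨n, hn⟩ : ∃ n : ℝ, n = Fintype.card Q := ⟨_, rfl⟩
  have hn0 : 0 ≤ n := by rw [hn]; exact Nat.cast_nonneg _
  rw [← hn] at h
  -- the Cauchy-Schwarz inequality
  have hcs : ∑ x, ‖u x‖ ≤ (n + 1) * ‖u‖ := by
    calc ∑ x, ‖u x‖ ≤ ∑ _x : Q, ‖u‖ := by
          refine Finset.sum_le_sum fun x _ => ?_
          refine abs_le_of_sq_le_sq' ?_ (norm_nonneg _) |>.2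
          rw [norm_sq_KT u]
          exact Finset.single_le_sum (f := fun x => ‖u x‖ ^ 2) (fun i _ => by positivity)
            (Finset.mem_univ x)
      _ = n * ‖u‖ := by rw [Finset.sum_const, Finset.card_univ, nsmul_eq_mul, hn]
      _ ≤ _ := by nlinarith [norm_nonneg u]
  refine abs_le_of_sq_le_sq' ?_ (by positivity) |>.2
  rw [norm_sq_KT v]
  have hs : 0 ≤ ε / (n + 1) := by positivity
  have hse : (n + 1) * (ε / (n + 1)) = ε := by field_simp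
  have h1 : ∑ x, ‖v x‖ ^ 2 ≤ ∑ x, (c ^ 2 * ‖u x‖ ^ 2 + 2 * c * (ε / (n + 1)) * ‖u x‖ +
      (ε / (n + 1)) ^ 2) := by
    refine Finset.sum_le_sum fun x _ => ?_
    refine (pow_le_pow_left₀ (norm_nonneg _) (h x) 2).trans_eq (by ring)
  refine h1.trans ?_
  rw [Finset.sum_add_distrib, Finset.sum_add_distrib, ← Finset.mul_sum, ← Finset.mul_sum,
    ← norm_sq_KT, Finset.sum_const, Finset.card_univ, nsmul_eq_mul, ← hn]
  have h2 : 2 * c * (ε / (n + 1)) * ∑ x, ‖u x‖ ≤ 2 * c * ε * ‖u‖ := by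
    calc 2 * c * (ε / (n + 1)) * ∑ x, ‖u x‖ ≤ 2 * c * (ε / (n + 1)) * ((n + 1) * ‖u‖) :=
          mul_le_mul_of_nonneg_left hcs (by positivity)
      _ = 2 * c * ((n + 1) * (ε / (n + 1))) * ‖u‖ := by ring
      _ = _ := by rw [hse]
  have h3 : n * (ε / (n + 1)) ^ 2 ≤ ε ^ 2 := by
    have e1 : ε ^ 2 = (n + 1) ^ 2 * (ε / (n + 1)) ^ 2 := by rw [← mul_pow, hse]
    rw [e1]
    refine mul_le_mul_of_nonneg_right ?_ (by positivity)
    nlinarith
  nlinarith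

variable {lam : Γ →* (K →L[ℂ] K)} {W : Set (K →L[ℂ] K)} {Ω : ι → K}
  {m : Set Γ → (K →L[ℂ] K)}

/-- projections are monotone -/
theorem MsF.mono (h : MsF lam W Ω m) {S T : Set Γ} (hST : S ⊆ T) (ξ : K) :
    ‖m S ξ‖ ≤ ‖m T ξ‖ := by
  have h1 : m S = m S * m T := by
    rw [← h.inf, Set.inter_eq_left.2 hST]
  have h2 : ∀ η, ‖m S η‖ ≤ ‖η‖ := by
    intro η
    have h3 : ‖m S η‖ ^ 2 ≤ ‖m S η‖ * ‖η‖ := by
      have h4 : ⟪m S η, m S η⟫_ℂ = ⟪m S η, η⟫_ℂ := by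
        conv_lhs => rw [← adjoint_inner_left, h.adj]
        have h5 : m S * m S = m S := by rw [← h.inf, Set.inter_self]
        have h6 : m S (m S η) = m S η := congrArg (fun A : K →L[ℂ] K => A η) h5
        rw [h6]
      have h7 : ((‖m S η‖ ^ 2 : ℝ) : ℂ) = ⟪m S η, η⟫_ℂ := by
        rw [← h4, inner_self_eq_norm_sq_to_K]; norm_cast
      have h8 : ‖m S η‖ ^ 2 = ‖⟪m S η, η⟫_ℂ‖ := by
        rw [← h7, Complex.norm_real, Real.norm_of_nonneg (by positivity)]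
      rw [h8]
      exact norm_inner_le_norm _ _
    by_contra hc
    push Not at hc
    have h9 : 0 < ‖m S η‖ := (norm_nonneg _).trans_lt hc
    nlinarith
  have h3 : m S ξ = m S (m T ξ) := congrArg (fun A : K →L[ℂ] K => A ξ) h1
  rw [h3]
  exact h2 _

/-- matrix units -/
theorem unit_mem (W : Set (K →L[ℂ] K)) (x y : Q) :
    (em x ∘L co y : KT Q K →L[ℂ] KT Q K) ∈ StarAlgebra.adjoin ℂ (ampW Q W) := by
  classical
  have hsg : ∀ f : FG Q, (sg f : KT Q K →L[ℂ] KT Q K) ∈ StarAlgebra.adjoin ℂ (ampW Q W) :=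
    fun f => StarAlgebra.subset_adjoin ℂ _ (Or.inr ⟨f, rfl⟩)
  obtain ⟨f, hf⟩ : ∃ f : FG Q, f = ⟨1, x * y⁻¹⟩ := ⟨_, rfl⟩
  obtain ⟨d, hd⟩ : ∃ d : FG Q, d = ⟨Function.update 1 x (-1), 1⟩ := ⟨_, rfl⟩
  have h1 : (em x ∘L co y : KT Q K →L[ℂ] KT Q K) = (1 / 2 : ℂ) • ((1 - sg d) * sg f) := by
    ext1 v
    apply ext_co
    intro z
    change em x (v y) z = (1 / 2 : ℂ) • ((sg f v) z - (sg d (sg f v)) z)
    have e1 : sg d (sg f v) z = (((d.left z : ℤˣ) : ℤ) : ℂ) • sg f v z := by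
      rw [sg_apply]
      have : d.right⁻¹ * z = z := by rw [hd]; simp
      rw [this]
    rw [e1]
    by_cases hz : z = x
    · subst hz
      rw [em_same]
      have e2 : d.left z = -1 := by rw [hd]; simp
      have e3 : sg f v z = v y := by
        rw [sg_apply]
        have a1 : (((f.left z : ℤˣ) : ℤ) : ℂ) = 1 := by rw [hf]; simp
        have a2 : f.right⁻¹ * z = y := by rw [hf]; simp
        rw [a1, a2, one_smul]
      rw [e2, e3]
      simp only [Units.val_neg, Units.val_one, Int.cast_neg, Int.cast_one, neg_smul, one_smul,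
        sub_neg_eq_add]
      rw [← two_smul ℂ, smul_smul]
      norm_num
    · rw [em_ne hz]
      have e2 : d.left z = 1 := by rw [hd]; simp [Function.update_of_ne hz]
      rw [e2]
      simp
  rw [h1]
  refine SMulMemClass.smul_mem _ (mul_mem (sub_mem (one_mem _) (hsg d)) (hsg f))

theorem amp_mem {T : K →L[ℂ] K} (hT : T ∈ StarAlgebra.adjoin ℂ W) :
    H333.Amp.amp (Q := Q) T ∈ StarAlgebra.adjoin ℂ (ampW Q W) := by
  have h1 : ampS Q K T ∈ (StarAlgebra.adjoin ℂ W).map (ampS Q K) := ⟨T, hT, rfl⟩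
  rw [StarAlgHom.map_adjoin] at h1
  refine StarAlgebra.adjoin_mono ?_ h1
  rintro _ ⟨w, hw, rfl⟩
  exact Or.inl ⟨w, hw, rfl⟩

/-- (Ms) for the amplification -/
theorem MsF.amp (h : MsF lam W Ω m) (j : ι ↪ Q) :
    Ms (ampH Q lam) (ampW Q W) (ampO j Ω) (fun S => H333.Amp.amp (Q := Q) (m S)) where
  adj S := by rw [adjoint_amp, h.adj]
  inf S T := by rw [h.inf, amp_mul]
  compl S := by rw [h.compl, amp_sub, amp_one]
  cm S := cm_amp (h.cm S)
  cov γ S := by rw [ampH_ap, ampH_ap, ← amp_mul, ← amp_mul, h.cov]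
  om := by
    apply ext_co
    intro x
    rw [amp_apply]
    by_cases hx : ∃ i, j i = x
    · obtain ⟨i, rfl⟩ := hx
      rw [ampO_ap, h.om]
    · push Not at hx
      rw [ampO_ne j Ω hx, map_zero]
  fin ξ ε hε := by
    classical
    have h1 : ∀ x, ∃ F : Finset Γ, ‖m ((F : Set Γ))ᶜ (ξ x)‖ ≤ ε / (Fintype.card Q + 1) :=
      fun x => h.fin (ξ x) _ (by positivity)
    choose F hF using h1
    refine ⟨Finset.univ.biUnion F, ?_⟩
    have h2 : ‖H333.Amp.amp (Q := Q) (m ((Finset.univ.biUnion F : Finset Γ) : Set Γ)ᶜ) ξ‖ ≤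
        0 * ‖ξ‖ + ε := by
      refine norm_le_coord le_rfl hε.le fun x => ?_
      rw [amp_apply, zero_mul, zero_add]
      refine (h.mono ?_ (ξ x)).trans (hF x)
      refine Set.compl_subset_compl.2 fun y hy => ?_
      exact Finset.mem_coe.2 (Finset.mem_biUnion.2 ⟨x, Finset.mem_univ _, hy⟩)
    rwa [zero_mul, zero_add] at h2
  cyc ξ hξ := by
    obtain ⟨P, hP⟩ : ∃ P : Submodule ℂ (KT Q K), P = Submodule.span ℂ
      {η | ∃ w ∈ StarAlgebra.adjoin ℂ (ampW Q W), η = w (ampO j Ω)} := ⟨_, rfl⟩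
    obtain ⟨R, hR⟩ : ∃ R : Submodule ℂ K, R = Submodule.span ℂ
      {η | ∃ i, ∃ w ∈ StarAlgebra.adjoin ℂ W, η = w (Ω i)} := ⟨_, rfl⟩
    have h1 : ∀ x : Q, ∀ η ∈ R, em x η ∈ P := by
      intro x η hη
      rw [hR] at hη
      induction hη using Submodule.span_induction with
      | mem y hy =>
        obtain ⟨i, w, hw, rfl⟩ := hy
        rw [hP]
        refine Submodule.subset_span ⟨(em x ∘L co (j i)) * H333.Amp.amp w,
          mul_mem (unit_mem W x (j i)) (amp_mem hw), ?_⟩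
        change em x (w (Ω i)) = em x (w (ampO j Ω (j i)))
        rw [ampO_ap]
      | zero => rw [map_zero]; exact zero_mem _
      | add a b _ _ ha hb => rw [map_add]; exact add_mem ha hb
      | smul c a _ ha => rw [map_smul]; exact P.smul_mem c ha
    have h2 : ∀ x : Q, em x (ξ x) ∈ P.topologicalClosure := by
      intro x
      have h3 : m {1} (ξ x) = ξ x := by
        have h4 := congrArg (fun v : KT Q K => v x) hξ
        exact h4
      have h5 := h.cyc _ h3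
      rw [← hR] at h5
      have h6 : em x (ξ x) ∈ closure ((em x : K → KT Q K) '' (R : Set K)) :=
        image_closure_subset_closure_image (em x).continuous ⟨_, h5, rfl⟩
      refine closure_mono ?_ h6
      rintro _ ⟨η, hη, rfl⟩
      exact h1 x η hη
    have h3 : ξ ∈ P.topologicalClosure := by
      rw [← sum_em ξ]
      exact sum_mem fun x _ => h2 x
    rw [hP] at h3
    exact h3

variable {π : G3 k →* (K →L[ℂ] K)} {w : kˣ} {q : Γ →* G3 k}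
  {E F : PP k → (CP k →⋆ₐ[ℂ] (K →L[ℂ] K))}

theorem uc_amp (h : ∀ i, UC π W (Ω i) m) (j : ι ↪ Q) :
    UC (ampH Q π) (ampW Q W) (ampO j Ω) (fun S => H333.Amp.amp (Q := Q) (m S)) := by
  intro δ hδ
  have h1 : ∀ i, ∀ᶠ g in 𝓝 (1 : G3 k), ∀ S, ∀ B, Cm W B → ‖B‖ ≤ 1 → ∀ h,
      ‖(m S * π g - π g * m S) (B (π h (Ω i)))‖ ≤ δ / (Fintype.card ι + 1) :=
    fun i => h i _ (by positivity)
  filter_upwards [Filter.eventually_all.2 h1] with g hg S B hB hB1 v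
  obtain ⟨B', rfl, hB'⟩ := cm_ampW.1 hB
  rw [norm_amp] at hB1
  exact norm_amp_le (T := (m S * π g - π g * m S) * B' * π v) j Ω hδ.le
    fun i => hg i S B' hB' hB1 v

theorem size_amp (h : ∀ i, SIZE w π (Ω i) m q) (j : ι ↪ Q) :
    SIZE w (ampH Q π) (ampO j Ω) (fun S => H333.Amp.amp (Q := Q) (m S)) q := by
  intro g η hη ε hε
  have h1 : ∀ i, ∀ᶠ N : ℕ in atTop, ‖m {γ | Real.exp (Real.exp (η * N)) < nm (q γ)}
      (π (g * bw w ^ N * g⁻¹)⁻¹ (Ω i))‖ ≤ ε / (Fintype.card ι + 1) :=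
    fun i => h i g η hη _ (by positivity)
  filter_upwards [Filter.eventually_all.2 h1] with N hN
  exact norm_amp_le (T := m {γ | Real.exp (Real.exp (η * N)) < nm (q γ)} *
    π (g * bw w ^ N * g⁻¹)⁻¹) j Ω hε.le hN

theorem nm_nonneg (h : G3 k) : 0 ≤ nm h := norm_nonneg _

theorem NW.mono {R R' : ℝ} (hR : R ≤ R') {h : G3 k} (hh : NW R h) : NW R' h :=
  hh.trans (mul_le_mul_of_nonneg_right hR (nm_nonneg h))

theorem nws_amp (hm : MsF lam W Ω m) (h : ∀ i, NWS w π (Ω i) m q) (j : ι ↪ Q) :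
    NWS w (ampH Q π) (ampO j Ω) (fun S => H333.Amp.amp (Q := Q) (m S)) q := by
  intro g ε hε
  have h1 : ∀ i, ∃ R : ℝ, ∀ N : ℕ, ‖m {γ | ¬ NW R (q γ)} (π (g * bw w ^ N * g⁻¹)⁻¹ (Ω i))‖ ≤
      ε / (Fintype.card ι + 1) := fun i => h i g _ (by positivity)
  choose R hR using h1
  obtain ⟨R', hR'⟩ := (Set.finite_range R).bddAbove
  refine ⟨R', fun N => ?_⟩
  refine norm_amp_le (T := m {γ | ¬ NW R' (q γ)} * π (g * bw w ^ N * g⁻¹)⁻¹) j Ω hε.le
    fun i => ?_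
  refine (hm.mono ?_ _).trans (hR i N)
  intro γ hγ hc
  exact hγ (hc.mono (hR' ⟨i, rfl⟩))

theorem efam_amp (hm : MsF lam W Ω m) (h : EFam w π lam W m q E)
    {πt : G3 k →* (KT Q K →L[ℂ] KT Q K)} (hπt : ∀ g, πt g = H333.Amp.amp (π g)) :
    EFam w πt (ampH Q lam) (ampW Q W) (fun S => H333.Amp.amp (Q := Q) (m S)) q
      (fun a => ampE Q (E a)) where
  cm a f := cm_amp (h.cm a f)
  cov γ a f := by rw [ampE_ap, ampE_ap, ampH_ap, ampH_ap, ← amp_mul, ← amp_mul, h.cov]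
  pcov g a f := by rw [ampE_ap, ampE_ap, hπt, hπt, ← amp_mul, ← amp_mul, h.pcov]
  dom g u A hA hu ζ ε hε := by
    have h1 : ∀ x : Q, ∃ R : ℝ, ∀ T > 0, ∀ᶠ N : ℕ in atTop,
      ‖E (g • ept k 0) u (ζ x)‖ ≤ ‖u‖ * ‖m {γ | NW R (q γ) ∧ Att T A (q γ)}
        (π (g * bw w ^ N * g⁻¹)⁻¹ (ζ x))‖ + ε / (Fintype.card Q + 1) :=
      fun x => h.dom g u A hA hu (ζ x) _ (by positivity)
    choose R hR using h1
    obtain ⟨R', hR'⟩ := (Set.finite_range R).bddAbove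
    refine ⟨R', fun T hT => ?_⟩
    filter_upwards [Filter.eventually_all.2 fun x => hR x T hT] with N hN
    rw [hπt]
    refine norm_le_coord (norm_nonneg _) hε.le fun x => ?_
    have h2 : ‖m {γ | NW (R x) (q γ) ∧ Att T A (q γ)} (π (g * bw w ^ N * g⁻¹)⁻¹ (ζ x))‖ ≤
        ‖m {γ | NW R' (q γ) ∧ Att T A (q γ)} (π (g * bw w ^ N * g⁻¹)⁻¹ (ζ x))‖ := by
      refine hm.mono (S := {γ | NW (R x) (q γ) ∧ Att T A (q γ)}) (fun γ hγ => ?_) _
      exact ⟨NW.mono (hR' ⟨x, rfl⟩) hγ.1, hγ.2⟩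
    have h3 : ‖(ampE Q (E (g • ept k 0)) u) ζ x‖ = ‖E (g • ept k 0) u (ζ x)‖ := rfl
    have h4 : ‖(H333.Amp.amp (Q := Q) (m {γ | NW R' (q γ) ∧ Att T A (q γ)}))
        (H333.Amp.amp (π (g * bw w ^ N * g⁻¹)⁻¹) ζ) x‖ =
        ‖m {γ | NW R' (q γ) ∧ Att T A (q γ)} (π (g * bw w ^ N * g⁻¹)⁻¹ (ζ x))‖ := rfl
    rw [h3, h4]
    exact (hN x).trans (add_le_add_left (mul_le_mul_of_nonneg_left h2 (norm_nonneg _)) _)
  agr a b hab ξ hξ := by
    apply ext_co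
    intro x
    refine h.agr a b hab (ξ x) fun f => ?_
    exact congrArg (fun v : KT Q K => v x) (hξ f)

theorem continuous_un : Continuous fun s : k => (un s : G3 k) := by
  refine continuous_induced_rng.2 ?_
  change Continuous fun s : k => (un s : G3 k).1
  simp only [SD.un, Matrix.SpecialLinearGroup.transvection_coe]
  refine continuous_const.add ?_
  refine continuous_pi fun a => continuous_pi fun b => ?_
  simp only [Matrix.single_apply]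
  split_ifs
  · exact continuous_id
  · exact continuous_const

theorem orb_amp [MeasurableSpace k] [OpensMeasurableSpace k] {μ : Measure k}
    (hc : ∀ ξ, Continuous fun g => π g ξ)
    (h : ORBF μ w π lam W Ω) (j : ι ↪ Q) :
    ORB μ w (ampH Q π) (ampH Q lam) (ampW Q W) (ampO j Ω) := by
  intro g δ hδ
  have h1 : ∀ i, ∃ C : ℝ, ∀ N : ℕ, ∀ T, Cm W T → ‖T‖ ≤ 1 →
      ∫⁻ s in Metric.closedBall (0 : k) 1, ‖T (π (g * bw w ^ N * un s * g⁻¹)⁻¹ (Ω i))‖ₑ ^ 2 ∂μ ≤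
      ENNReal.ofReal (C * ‖(w : k)‖ ^ (3 * N)) * TRNF lam Ω T +
        ENNReal.ofReal (δ / (Fintype.card ι + 1)) := fun i => h i g _ (by positivity)
  choose C hC using h1
  refine ⟨∑ i, |C i|, fun N T hT hT1 => ?_⟩
  obtain ⟨T', rfl, hT'⟩ := cm_ampW.1 hT
  rw [norm_amp] at hT1
  rw [trn_amp]
  have h2 : ∀ s : k, ‖H333.Amp.amp (Q := Q) T' (ampH Q π (g * bw w ^ N * un s * g⁻¹)⁻¹
      (ampO j Ω))‖ₑ ^ 2 = ∑ i, ‖T' (π (g * bw w ^ N * un s * g⁻¹)⁻¹ (Ω i))‖ₑ ^ 2 := by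
    intro s
    rw [enorm_sq_KT]
    exact sum_ampO j Ω (fun v => ‖T' (π (g * bw w ^ N * un s * g⁻¹)⁻¹ v)‖ₑ ^ 2) (by simp)
  simp_rw [h2]
  have hm : ∀ i, Measurable fun s : k => ‖T' (π (g * bw w ^ N * un s * g⁻¹)⁻¹ (Ω i))‖ₑ ^ 2 := by
    intro i
    have c1 : Continuous fun s : k => (g * bw w ^ N * un s * g⁻¹)⁻¹ :=
      ((continuous_const.mul continuous_un).mul continuous_const).inv
    have c2 : Continuous fun s : k => T' (π (g * bw w ^ N * un s * g⁻¹)⁻¹ (Ω i)) :=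
      T'.continuous.comp ((hc (Ω i)).comp c1)
    exact ((continuous_enorm.comp c2).measurable).pow_const 2
  rw [lintegral_finset_sum _ fun i _ => hm i]
  have h3 : ∀ i, ENNReal.ofReal (C i * ‖(w : k)‖ ^ (3 * N)) * TRNF lam Ω T' ≤
      ENNReal.ofReal (|C i| * ‖(w : k)‖ ^ (3 * N)) * TRNF lam Ω T' := fun i => by
    gcongr
    exact le_abs_self _
  calc ∑ i, ∫⁻ s in Metric.closedBall (0 : k) 1,
        ‖T' (π (g * bw w ^ N * un s * g⁻¹)⁻¹ (Ω i))‖ₑ ^ 2 ∂μ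
      ≤ ∑ i, (ENNReal.ofReal (|C i| * ‖(w : k)‖ ^ (3 * N)) * TRNF lam Ω T' +
          ENNReal.ofReal (δ / (Fintype.card ι + 1))) := by
        refine Finset.sum_le_sum fun i _ => (hC i N T' hT' hT1).trans ?_
        exact add_le_add_left (h3 i) _
    _ = ENNReal.ofReal ((∑ i, |C i|) * ‖(w : k)‖ ^ (3 * N)) * TRNF lam Ω T' +
          Fintype.card ι * ENNReal.ofReal (δ / (Fintype.card ι + 1)) := by
        have e0 : ENNReal.ofReal ((∑ i, |C i|) * ‖(w : k)‖ ^ (3 * N)) =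
            ∑ i, ENNReal.ofReal (|C i| * ‖(w : k)‖ ^ (3 * N)) := by
          rw [Finset.sum_mul, ENNReal.ofReal_sum_of_nonneg fun i _ => by positivity]
        rw [Finset.sum_add_distrib, ← Finset.sum_mul, Finset.sum_const, Finset.card_univ,
          nsmul_eq_mul, e0]
    _ ≤ _ := by
        refine add_le_add_right ?_ _
        have e1 : (Fintype.card ι : ℝ≥0∞) = ENNReal.ofReal (Fintype.card ι : ℝ) := by
          rw [ENNReal.ofReal_natCast]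
        rw [e1, ← ENNReal.ofReal_mul (Nat.cast_nonneg _)]
        refine ENNReal.ofReal_le_ofReal ?_
        rw [mul_div_assoc', div_le_iff₀ (by positivity)]
        nlinarith

/-- **The amplified leg has one vector.** The picture `hp` comes from `PicF.exists_amp`. -/
theorem LegF.amp [MeasurableSpace k] [OpensMeasurableSpace k] {μ : Measure k}
    (h : LegF μ w π lam W Ω m q E F) (j : ι ↪ Q)
    (hp : Pic (ampH Q π) (ampH Q lam) (ampW Q W) (ampO j Ω)) :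
    LegS μ w (ampH Q π) (ampH Q lam) (ampW Q W) (ampO j Ω)
      (fun S => H333.Amp.amp (Q := Q) (m S)) q (fun a => ampE Q (E a)) (fun a => ampE Q (F a)) where
  hw := h.hw
  pic := hp
  ms := h.ms.amp j
  inj := h.inj
  disc := h.disc
  uc := uc_amp h.uc j
  orb := orb_amp h.pic.contP h.orb j
  size := size_amp h.size j
  nws := nws_amp h.ms h.nws j
  e := efam_amp h.ms h.e fun g => rfl
  f := efam_amp h.ms h.f fun g => rfl

theorem tv_amp (h : TVF π lam W Ω) (j : ι ↪ Q) : TV (ampH Q π) (ampH Q lam) (ampW Q W) (ampO j Ω) := by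
  rintro Y ⟨hY, hl⟩ v
  obtain ⟨Y', rfl, hY'⟩ := cm_ampW.1 hY
  have h1 : Y' ∈ MM lam W := ⟨hY', fun γ => amp_comm_iff.1 (hl γ)⟩
  have h2 := h Y' h1 v
  rw [inner_ampO, ← h2, inner_KT]
  exact sum_ampO j Ω (fun x => ⟪π v x, Y' (π v x)⟫_ℂ) (by simp)

end amp

end Vale.Agent.P092.SD
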