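import Vale.Agent.P092.CLT.Amp
import Vale.Agent.P092.CL.Lt
import Vale.Agent.P092.CL.LtO

/-!
P092, stages 2, 3 and CL-O, all amplifications (helper958): the near-wall sets of the letters
`CL.lt` and `CL.ltO` grow with the constant.
-/

set_option linter.all false

open Matrix Module Set MeasureTheory

namespace Vale.Agent.P092.CL.T

open Vale.Agent.P092.CL
open Vale.Agent.P092.H303 (FormGroup Idx hyp)
open Vale.Agent.P092.H714.Cl

section mat

variable {k : Type} [NontriviallyNormedField k] {n : Type} [Fintype n] [DecidableEq n]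

theorem nw1_mono {R R' : ℝ} (h : R ≤ R') {A : Matrix n n k} (hA : NW1 R A) : NW1 R' A :=
  fun i i' j j' => (hA i i' j j').trans (mul_le_mul_of_nonneg_right h (norm_nonneg _))

theorem nwr_mono {r : ℕ} {R R' : ℝ} (h : R ≤ R') {A : Matrix n n k} (hA : NWr r R A) :
    NWr r R' A := by
  obtain ⟨V, hV, hv⟩ := hA
  exact ⟨V, hV, fun v hm => (hv v hm).trans (mul_le_mul_of_nonneg_right h (norm_nonneg _))⟩

end mat

variable {k : Type} [NontriviallyNormedField k] [MeasurableSpace k] {ι : Type} [Fintype ι]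
  [DecidableEq ι] {s : ℕ} {σ : k →+* k} {ε : k} {J₀ : Matrix ι ι k}

/-- symplectic and unitary groups -/
theorem naMono_lt (hF : Frm σ ε (hyp (s + 2) ε J₀)) {w : k} (hw : w ≠ 0) (hσ : σ w = w)
    (μ₁ : Measure k) (μ₂ : Measure (V2 σ ε)) : NAMono (lt hF hw hσ μ₁ μ₂) where
  n1 _ _ h _ hg := ⟨nw1_mono h hg.1, hg.2⟩
  n2 _ _ h _ hg := ⟨nwr_mono h hg.1, hg.2⟩

/-- orthogonal groups -/
theorem naMono_ltO (h : OF J₀) {a : k} (ha : a ≠ 0) (μ₁ : Measure k) (μ₂ : Measure (ι → k)) :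
    NAMono (ltO h s ha μ₁ μ₂) where
  n1 _ _ h _ hg := ⟨nw1_mono h hg.1, hg.2⟩
  n2 _ _ h _ hg := ⟨nwr_mono h hg.1, hg.2⟩

end Vale.Agent.P092.CL.T
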