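import Vale.Agent.P092.H421.Hs6

/-!
P092, all amplifications (helper958): Bessel families in the amplified model.
-/

set_option linter.all false

open scoped InnerProductSpace ENNReal
open Filter Topology ContinuousLinearMap

namespace Vale.Agent.P092.H958

open Vale.Agent.P092.H160 Vale.Agent.P092.H103 Vale.Agent.P092.H962 Vale.Agent.P092.H58
  Vale.Agent.P092.H421.Hs

theorem esq' {K : Type} [NormedAddCommGroup K] (x : K) : ‖x‖ₑ ^ 2 = ENNReal.ofReal (‖x‖ ^ 2) := by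
  rw [← ofReal_norm, ENNReal.ofReal_pow (norm_nonneg _)]

/-- Bessel inequality, in `ℝ≥0∞`. -/
theorem bessel' {J K : Type} [NormedAddCommGroup K] [InnerProductSpace ℂ K] {e : J → K}
    (he : Orthonormal ℂ e) (y : K) : ∑' j, ‖⟪e j, y⟫_ℂ‖ₑ ^ 2 ≤ ‖y‖ₑ ^ 2 := by
  simp_rw [esq']
  rw [← ENNReal.ofReal_tsum_of_nonneg (fun j => by positivity) (he.inner_products_summable y)]
  exact ENNReal.ofReal_le_ofReal (he.tsum_inner_products_le y)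

theorem esq_ell2 {X : Type} (v : Ell2 X) : ‖v‖ₑ ^ 2 = ∑' x, ‖v x‖ₑ ^ 2 := by
  rw [esq', norm_sq, ENNReal.ofReal_tsum_of_nonneg (fun _ => sq_nonneg _) (summable_sq v)]
  exact tsum_congr fun x => (esq' _).symm

section one

variable {Γ Λ I : Type} [Group Γ] [Group Λ] [Fintype I]
  {α : Γ → (Ell2 (I × Λ) →L[ℂ] Ell2 (I × Λ))} (hα : AF α)

/-- the column vectors of `α v` -/
noncomputable def phv (α : Γ → (Ell2 (I × Λ) →L[ℂ] Ell2 (I × Λ))) (v : Γ) :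
    PiLp 2 (fun _ : I => Ell2 (I × Λ)) :=
  WithLp.toLp 2 fun i => ((((Real.sqrt (dm α))⁻¹ : ℝ) : ℂ)) • α v (dl (i, 1))

include hα in
theorem on_phv : Orthonormal ℂ (phv α) := by
  classical
  have hd := dm_pos hα
  rw [orthonormal_iff_ite]
  intro v w
  rw [PiLp.inner_apply]
  have e1 : ∀ i, ⟪(phv α v) i, (phv α w) i⟫_ℂ =
      (((dm α)⁻¹ : ℝ) : ℂ) * ⟪α v (dl (i, 1)), α w (dl (i, 1))⟫_ℂ := by
    intro i
    change ⟪((((Real.sqrt (dm α))⁻¹ : ℝ) : ℂ)) • α v (dl (i, 1)),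
      ((((Real.sqrt (dm α))⁻¹ : ℝ) : ℂ)) • α w (dl (i, 1))⟫_ℂ = _
    rw [inner_smul_left, inner_smul_right, Complex.conj_ofReal, ← mul_assoc, ← Complex.ofReal_mul,
      ← mul_inv, Real.mul_self_sqrt hd.le]
  simp_rw [e1]
  rw [← Finset.mul_sum, sum_inner_al hα]
  by_cases h : v = w
  · subst h
    rw [if_pos rfl, inv_mul_cancel, tr_p hα, ← Complex.ofReal_mul, inv_mul_cancel₀ hd.ne']
    simp
  · rw [if_neg h, hα.tr0 _ (fun h1 => h (inv_mul_eq_one.1 h1)), mul_zero]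

include hα in
/-- (B1) -/
theorem bes_al (i : I) (a : Λ) (y : Ell2 (I × Λ)) :
    ∑' v, ‖⟪α v (dl (i, a)), y⟫_ℂ‖ₑ ^ 2 ≤ ENNReal.ofReal (dm α) * ‖y‖ₑ ^ 2 := by
  classical
  have hd := dm_pos hα
  have h1 : ∀ y : Ell2 (I × Λ), ∑' v, ‖⟪α v (dl (i, 1)), y⟫_ℂ‖ₑ ^ 2 ≤
      ENNReal.ofReal (dm α) * ‖y‖ₑ ^ 2 := by
    intro y
    obtain ⟨Y, hY⟩ : ∃ Y : PiLp 2 (fun _ : I => Ell2 (I × Λ)), Y = WithLp.toLp 2 (Pi.single i y) :=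
      ⟨_, rfl⟩
    have hn : ‖Y‖ₑ ^ 2 = ‖y‖ₑ ^ 2 := by
      rw [esq', esq']
      congr 1
      rw [PiLp.norm_sq_eq_of_L2, Finset.sum_eq_single i]
      · rw [hY]
        simp
      · intro j _ hj
        rw [hY]
        change ‖(Pi.single i y : I → Ell2 (I × Λ)) j‖ ^ 2 = 0
        rw [Pi.single_eq_of_ne hj]
        simp
      · intro h
        exact absurd (Finset.mem_univ _) h
    have hi : ∀ v, ⟪phv α v, Y⟫_ℂ =
        (((Real.sqrt (dm α))⁻¹ : ℝ) : ℂ) * ⟪α v (dl (i, 1)), y⟫_ℂ := by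
      intro v
      rw [PiLp.inner_apply, Finset.sum_eq_single i]
      · rw [hY]
        change ⟪((((Real.sqrt (dm α))⁻¹ : ℝ) : ℂ)) • α v (dl (i, 1)),
          (Pi.single i y : I → Ell2 (I × Λ)) i⟫_ℂ = _
        rw [Pi.single_eq_same, inner_smul_left, Complex.conj_ofReal]
      · intro j _ hj
        rw [hY]
        change ⟪_, (Pi.single i y : I → Ell2 (I × Λ)) j⟫_ℂ = 0
        rw [Pi.single_eq_of_ne hj, inner_zero_right]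
      · intro h
        exact absurd (Finset.mem_univ _) h
    have h2 := bessel' (on_phv hα) Y
    rw [hn] at h2
    simp_rw [hi] at h2
    have h3 : ∀ v, ‖⟪α v (dl (i, 1)), y⟫_ℂ‖ₑ ^ 2 = ENNReal.ofReal (dm α) *
        ‖(((Real.sqrt (dm α))⁻¹ : ℝ) : ℂ) * ⟪α v (dl (i, 1)), y⟫_ℂ‖ₑ ^ 2 := by
      intro v
      rw [esq', esq', ← ENNReal.ofReal_mul hd.le, norm_mul, mul_pow, Complex.norm_real,
        Real.norm_eq_abs, sq_abs, inv_pow, Real.sq_sqrt hd.le, ← mul_assoc,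
        mul_inv_cancel₀ hd.ne', one_mul]
    simp_rw [h3]
    rw [ENNReal.tsum_mul_left]
    gcongr
  have h2 : ∀ v, ⟪α v (dl (i, a)), y⟫_ℂ = ⟪α v (dl (i, 1)), (FS.mat I Λ).R a y⟫_ℂ := by
    intro v
    rw [FS.mat_dl i a, hα.comm v, ← adjoint_inner_right, FS.R_adj, inv_inv]
  simp_rw [h2]
  refine (h1 _).trans_eq ?_
  congr 2
  rw [← ofReal_norm, ← ofReal_norm]
  congr 1
  exact norm_rei _ _

omit [Fintype I] in
theorem jv_dl (i : I) (a : Λ) : jv (dl (i, a)) = dl (i, a⁻¹) := by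
  classical
  apply ext_inner_dl
  rintro ⟨j, b⟩
  rw [jv_apply, dl_apply, dl_apply]
  have e : ((j, b⁻¹) = (i, a)) ↔ ((j, b) = (i, a⁻¹)) := by
    simp only [Prod.mk.injEq]
    refine and_congr_right fun _ => ?_
    exact inv_eq_iff_eq_inv
  simp only [e]
  split_ifs <;> simp

include hα in
/-- (B2) -/
theorem bes_J (i : I) (a : Λ) (y : Ell2 (I × Λ)) :
    ∑' v, ‖⟪JT (α v) (dl (i, a)), y⟫_ℂ‖ₑ ^ 2 ≤ ENNReal.ofReal (dm α) * ‖y‖ₑ ^ 2 := by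
  have h1 : ∀ v, ‖⟪JT (α v) (dl (i, a)), y⟫_ℂ‖ₑ = ‖⟪α v (dl (i, a⁻¹)), jv y⟫_ℂ‖ₑ := by
    intro v
    rw [H58.JT_apply, jv_dl]
    conv_lhs => rw [← jv_jv y]
    rw [inner_jv, RCLike.enorm_conj]
  simp_rw [h1]
  refine (bes_al hα i a⁻¹ (jv y)).trans_eq ?_
  congr 2
  rw [← ofReal_norm, ← ofReal_norm, norm_jv]

end one

section mod

variable {Γ Λ I J K : Type} [Group Γ] [Group Λ] [Fintype I] [Fintype J] [Fintype K]
  {α : Γ → (Ell2 (I × Λ) →L[ℂ] Ell2 (I × Λ))} {β : Γ → (Ell2 (J × Λ) →L[ℂ] Ell2 (J × Λ))}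
  {γ : Γ → (Ell2 (K × Λ) →L[ℂ] Ell2 (K × Λ))} (hα : AF α) (hβ : AF β) (hγ : AF γ)

omit [Fintype I] [Fintype J] [Fintype K] in
/-- `VT x` on a basis vector, against a vector -/
theorem inner_VT (x : Ell2 (I × Λ) →L[ℂ] Ell2 (I × Λ)) (i : I) (j : J) (k : K) (g h : Λ)
    (F : Ell2 (I × ((J × Λ) × (K × Λ)))) :
    ⟪VT J K x (dl (i, ((j, g), (k, h)))), F⟫_ℂ =
      ⟪x (dl (i, g)), adjoint (tvl (dl (j, (k, g⁻¹ * h)))) (rei (eV I J K Λ) F)⟫_ℂ := by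
  rw [VT_apply, rei_dl]
  change ⟪rei (eV I J K Λ).symm (tens x 1 (dl ((i, g), (j, (k, g⁻¹ * h))))), F⟫_ℂ = _
  rw [tens_dl, adjoint_inner_right, tvl_apply]
  conv_lhs => rw [← rei_symm_self (eV I J K Λ) F]
  rw [inner_rei]
  rfl

include hα in
/-- (B3) -/
theorem bes_V (i : I) (j : J) (k : K) (g h : Λ) (F : Ell2 (I × ((J × Λ) × (K × Λ)))) :
    ∑' v, ‖⟪VT J K (α v) (dl (i, ((j, g), (k, h)))), F⟫_ℂ‖ₑ ^ 2 ≤
      ENNReal.ofReal (dm α) * ∑' p : I × Λ, ‖F (p.1, ((j, p.2), (k, p.2 * (g⁻¹ * h))))‖ₑ ^ 2 := by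
  simp_rw [inner_VT]
  refine (bes_al hα i g _).trans_eq ?_
  congr 1
  rw [esq_ell2]
  refine tsum_congr fun p => ?_
  rw [adj_tvl_apply, inner_dl]
  rfl

omit [Fintype I] [Fintype J] in
include hγ in
/-- (B4) -/
theorem bes_R (i : I) (j : J) (k : K) (a b : Λ) (y : Ell2 (I × ((J × Λ) × (K × Λ)))) :
    ∑' s, ‖(adjoint (R2T I J (γ s)) y) (i, ((j, a), (k, b)))‖ₑ ^ 2 ≤
      ENNReal.ofReal (dm γ) * ‖s₁ i (j, a) y‖ₑ ^ 2 := by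
  have h1 : ∀ s, (adjoint (R2T I J (γ s)) y) (i, ((j, a), (k, b))) =
      ⟪JT (γ s) (dl (k, b)), s₁ i (j, a) y⟫_ℂ := by
    intro s
    rw [← inner_dl, adjoint_inner_right, R2T, tens_dl, tens_dl, ← inner_s₁]
    rfl
  simp_rw [h1]
  exact bes_J hγ k b _

omit [Fintype I] [Fintype J] [Fintype K] in
/-- (B5) -/
theorem bes_s (j : J) (y : Ell2 (I × ((J × Λ) × (K × Λ)))) :
    ∑' p : I × Λ, ‖(s₁ p.1 (j, p.2) y : Ell2 (K × Λ))‖ₑ ^ 2 ≤ ‖y‖ₑ ^ 2 := by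
  have h1 : ∀ p : I × Λ, ‖(s₁ p.1 (j, p.2) y : Ell2 (K × Λ))‖ₑ ^ 2 =
      ∑' w : K × Λ, ‖y (p.1, ((j, p.2), w))‖ₑ ^ 2 := by
    intro p
    rw [esq_ell2]
    exact tsum_congr fun w => by rw [s₁_apply]
  simp_rw [h1]
  rw [← ENNReal.tsum_prod (f := fun (p : I × Λ) (w : K × Λ) => ‖y (p.1, ((j, p.2), w))‖ₑ ^ 2),
    esq_ell2 y]
  refine ENNReal.tsum_comp_le_tsum_of_injective
    (f := fun q : (I × Λ) × (K × Λ) => (q.1.1, ((j, q.1.2), q.2))) ?_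
    (fun x => ‖y x‖ₑ ^ 2)
  rintro ⟨⟨i, a⟩, w⟩ ⟨⟨i', a'⟩, w'⟩ h
  simp only [Prod.mk.injEq] at h
  obtain ⟨h1, ⟨-, h2⟩, h3⟩ := h
  rw [h1, h2, h3]

include hα hγ in
/-- **The Bessel property of the orbit of a basis vector.** -/
theorem bes_dl (x : I × ((J × Λ) × (K × Λ))) (y : Ell2 (I × ((J × Λ) × (K × Λ)))) :
    ∑' p : Γ × Γ, ‖⟪R2T I J (γ p.2) (VT J K (α p.1) (dl x)), y⟫_ℂ‖ₑ ^ 2 ≤
      ENNReal.ofReal (dm α * dm γ) * ‖y‖ₑ ^ 2 := by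
  obtain ⟨i, ⟨j, g⟩, ⟨k, h⟩⟩ := x
  have h1 : ∀ v s, ⟪R2T I J (γ s) (VT J K (α v) (dl (i, ((j, g), (k, h))))), y⟫_ℂ =
      ⟪VT J K (α v) (dl (i, ((j, g), (k, h)))), adjoint (R2T I J (γ s)) y⟫_ℂ := fun v s =>
    (adjoint_inner_right _ _ _).symm
  calc ∑' p : Γ × Γ, ‖⟪R2T I J (γ p.2) (VT J K (α p.1) (dl (i, ((j, g), (k, h))))), y⟫_ℂ‖ₑ ^ 2
      = ∑' s : Γ, ∑' v : Γ, ‖⟪VT J K (α v) (dl (i, ((j, g), (k, h)))),
          adjoint (R2T I J (γ s)) y⟫_ℂ‖ₑ ^ 2 := by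
        rw [ENNReal.tsum_prod (f := fun v s =>
          ‖⟪R2T I J (γ s) (VT J K (α v) (dl (i, ((j, g), (k, h))))), y⟫_ℂ‖ₑ ^ 2),
          ENNReal.tsum_comm]
        exact tsum_congr fun s => tsum_congr fun v => by rw [h1]
    _ ≤ ∑' s : Γ, ENNReal.ofReal (dm α) * ∑' p : I × Λ,
          ‖(adjoint (R2T I J (γ s)) y) (p.1, ((j, p.2), (k, p.2 * (g⁻¹ * h))))‖ₑ ^ 2 :=
        ENNReal.tsum_le_tsum fun s => bes_V hα i j k g h _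
    _ = ENNReal.ofReal (dm α) * ∑' p : I × Λ, ∑' s : Γ,
          ‖(adjoint (R2T I J (γ s)) y) (p.1, ((j, p.2), (k, p.2 * (g⁻¹ * h))))‖ₑ ^ 2 := by
        rw [ENNReal.tsum_mul_left, ENNReal.tsum_comm]
    _ ≤ ENNReal.ofReal (dm α) * ∑' p : I × Λ, ENNReal.ofReal (dm γ) *
          ‖(s₁ p.1 (j, p.2) y : Ell2 (K × Λ))‖ₑ ^ 2 := by
        gcongr with p
        exact bes_R hγ p.1 j k p.2 _ y
    _ ≤ ENNReal.ofReal (dm α) * (ENNReal.ofReal (dm γ) * ‖y‖ₑ ^ 2) := by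
        rw [ENNReal.tsum_mul_left]
        gcongr
        exact bes_s j y
    _ = _ := by rw [ENNReal.ofReal_mul (dm_pos hα).le, mul_assoc]

/-- a finite combination of Bessel families -/
theorem bes_sum {X Y H : Type} [NormedAddCommGroup H] [InnerProductSpace ℂ H] (F : Finset X)
    (c : X → ℂ) (u : X → Y → H) {C : ℝ} (hu : ∀ x ∈ F, ∀ y : H,
      ∑' p, ‖⟪u x p, y⟫_ℂ‖ₑ ^ 2 ≤ ENNReal.ofReal C * ‖y‖ₑ ^ 2) (y : H) :
    ∑' p, ‖⟪∑ x ∈ F, c x • u x p, y⟫_ℂ‖ₑ ^ 2 ≤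
      ENNReal.ofReal ((∑ x ∈ F, ‖c x‖ ^ 2) * (F.card * |C|)) * ‖y‖ₑ ^ 2 := by
  have h1 : ∀ p, ‖⟪∑ x ∈ F, c x • u x p, y⟫_ℂ‖ₑ ^ 2 ≤
      ENNReal.ofReal (∑ x ∈ F, ‖c x‖ ^ 2) * ∑ x ∈ F, ‖⟪u x p, y⟫_ℂ‖ₑ ^ 2 := by
    intro p
    have e1 : ∑ x ∈ F, ‖⟪u x p, y⟫_ℂ‖ₑ ^ 2 = ENNReal.ofReal (∑ x ∈ F, ‖⟪u x p, y⟫_ℂ‖ ^ 2) := by
      rw [ENNReal.ofReal_sum_of_nonneg fun _ _ => sq_nonneg _]
      exact Finset.sum_congr rfl fun _ _ => esq' _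
    rw [e1, esq', ← ENNReal.ofReal_mul (Finset.sum_nonneg fun _ _ => sq_nonneg _)]
    refine ENNReal.ofReal_le_ofReal ?_
    have e2 : ‖⟪∑ x ∈ F, c x • u x p, y⟫_ℂ‖ ≤ ∑ x ∈ F, ‖c x‖ * ‖⟪u x p, y⟫_ℂ‖ := by
      rw [sum_inner]
      refine (norm_sum_le _ _).trans (Finset.sum_le_sum fun x _ => ?_)
      rw [inner_smul_left, norm_mul, RCLike.norm_conj]
    calc ‖⟪∑ x ∈ F, c x • u x p, y⟫_ℂ‖ ^ 2 ≤ (∑ x ∈ F, ‖c x‖ * ‖⟪u x p, y⟫_ℂ‖) ^ 2 :=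
          pow_le_pow_left₀ (norm_nonneg _) e2 2
      _ ≤ _ := Finset.sum_mul_sq_le_sq_mul_sq F _ _
  calc ∑' p, ‖⟪∑ x ∈ F, c x • u x p, y⟫_ℂ‖ₑ ^ 2
      ≤ ∑' p, ENNReal.ofReal (∑ x ∈ F, ‖c x‖ ^ 2) * ∑ x ∈ F, ‖⟪u x p, y⟫_ℂ‖ₑ ^ 2 :=
        ENNReal.tsum_le_tsum h1
    _ = ENNReal.ofReal (∑ x ∈ F, ‖c x‖ ^ 2) * ∑ x ∈ F, ∑' p, ‖⟪u x p, y⟫_ℂ‖ₑ ^ 2 := by
        rw [ENNReal.tsum_mul_left, Summable.tsum_finsetSum fun _ _ => ENNReal.summable]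
    _ ≤ ENNReal.ofReal (∑ x ∈ F, ‖c x‖ ^ 2) * ∑ x ∈ F, ENNReal.ofReal |C| * ‖y‖ₑ ^ 2 := by
        gcongr with x hx
        refine (hu x hx y).trans ?_
        gcongr
        exact le_abs_self C
    _ = _ := by
        rw [Finset.sum_const, nsmul_eq_mul, ENNReal.ofReal_mul
          (Finset.sum_nonneg fun _ _ => sq_nonneg _), ENNReal.ofReal_mul (Nat.cast_nonneg _),
          ENNReal.ofReal_natCast]
        ring

include hα hβ hγ in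
/-- **The orbits of the vectors of the model under the source are uniformly approximated by families
which are Bessel together with the second target.** -/
theorem bes_orbit (ω : HH (PT α β γ)) {ε : ℝ} (hε : 0 < ε) :
    ∃ (C : ℝ) (a : Γ → HH (PT α β γ)), (∀ v, ‖V3 hα hβ hγ v ω - a v‖ ≤ ε) ∧
      ∀ y, ∑' p : Γ × Γ, ‖⟪B3R hα hβ hγ p.2 (a p.1), y⟫_ℂ‖ₑ ^ 2 ≤ ENNReal.ofReal C * ‖y‖ₑ ^ 2 := by
  obtain ⟨hPP, kA, kB, kC, lA, lB, lC⟩ := PT_three hα hβ hγ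
  have hPa : ∀ v, PT α β γ (PT α β γ v) = PT α β γ v := fun v =>
    congrArg (fun T : Ell2 (I × ((J × Λ) × (K × Λ))) →L[ℂ] Ell2 (I × ((J × Λ) × (K × Λ))) => T v)
      hPP
  obtain ⟨M, hM⟩ : ∃ M : ℝ, M = ‖PT α β γ‖ * ‖VT J K (α 1)‖ := ⟨_, rfl⟩
  have hM0 : 0 ≤ M := by rw [hM]; positivity
  obtain ⟨F, hF⟩ := ((Metric.tendsto_nhds.1 (hasSum_dl
    (ω : Ell2 (I × ((J × Λ) × (K × Λ)))))) (ε / (M + 1)) (by positivity)).exists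
  obtain ⟨ω', hω'⟩ : ∃ ω' : Ell2 (I × ((J × Λ) × (K × Λ))),
      ω' = ∑ x ∈ F, (ω : Ell2 (I × ((J × Λ) × (K × Λ)))) x • dl x := ⟨_, rfl⟩
  have hn : ‖(ω : Ell2 (I × ((J × Λ) × (K × Λ)))) - ω'‖ ≤ ε / (M + 1) := by
    rw [hω', ← dist_eq_norm, dist_comm]
    exact hF.le
  refine ⟨(∑ x ∈ F, ‖(ω : Ell2 (I × ((J × Λ) × (K × Λ)))) x‖ ^ 2) *
    (F.card * |dm α * dm γ|), fun v => ⟨PT α β γ (VT J K (α v) ω'), hPa _⟩, fun v => ?_,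
    fun y => ?_⟩
  · have e1 : ((V3 hα hβ hγ v ω - ⟨PT α β γ (VT J K (α v) ω'), hPa _⟩ : HH (PT α β γ)) :
        Ell2 (I × ((J × Λ) × (K × Λ)))) = PT α β γ (VT J K (α v) (ω - ω')) := by
      have e2 : PT α β γ (VT J K (α v) (ω : Ell2 (I × ((J × Λ) × (K × Λ))))) =
          VT J K (α v) (ω : Ell2 (I × ((J × Λ) × (K × Λ)))) := by
        have e3 : PT α β γ (VT J K (α v) (ω : Ell2 (I × ((J × Λ) × (K × Λ))))) =
            VT J K (α v) (PT α β γ (ω : Ell2 (I × ((J × Λ) × (K × Λ))))) :=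
          congrArg (fun T : Ell2 (I × ((J × Λ) × (K × Λ))) →L[ℂ]
            Ell2 (I × ((J × Λ) × (K × Λ))) => T (ω : Ell2 (I × ((J × Λ) × (K × Λ))))) (kA v)
        rw [e3, show PT α β γ (ω : Ell2 (I × ((J × Λ) × (K × Λ)))) = ω from ω.2]
      rw [map_sub, map_sub, e2, ← V3_val hα hβ hγ]
      rfl
    change ‖((V3 hα hβ hγ v ω - ⟨PT α β γ (VT J K (α v) ω'), hPa _⟩ : HH (PT α β γ)) :
        Ell2 (I × ((J × Λ) × (K × Λ))))‖ ≤ ε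
    rw [e1]
    calc ‖PT α β γ (VT J K (α v) ((ω : Ell2 (I × ((J × Λ) × (K × Λ)))) - ω'))‖
        ≤ ‖PT α β γ‖ * ‖VT J K (α v) ((ω : Ell2 (I × ((J × Λ) × (K × Λ)))) - ω')‖ :=
          le_opNorm _ _
      _ ≤ ‖PT α β γ‖ * (‖VT J K (α 1)‖ * ‖(ω : Ell2 (I × ((J × Λ) × (K × Λ)))) - ω'‖) := by
          gcongr
          exact VT_bd hα v _
      _ ≤ M * (ε / (M + 1)) := by
          rw [← mul_assoc, ← hM]
          gcongr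
      _ ≤ ε := by
          rw [mul_div_assoc', div_le_iff₀ (by positivity)]
          nlinarith
  · have e1 : ∀ p : Γ × Γ, ⟪B3R hα hβ hγ p.2
        (⟨PT α β γ (VT J K (α p.1) ω'), hPa _⟩ : HH (PT α β γ)), y⟫_ℂ =
        ⟪∑ x ∈ F, (ω : Ell2 (I × ((J × Λ) × (K × Λ)))) x •
          R2T I J (γ p.2) (VT J K (α p.1) (dl x)), (y : Ell2 (I × ((J × Λ) × (K × Λ))))⟫_ℂ := by
      intro p
      rw [Submodule.coe_inner, B3R_val]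
      change ⟪R2T I J (γ p.2) (PT α β γ (VT J K (α p.1) ω')), _⟫_ℂ = _
      have e4 : R2T I J (γ p.2) (PT α β γ (VT J K (α p.1) ω')) =
          PT α β γ (R2T I J (γ p.2) (VT J K (α p.1) ω')) :=
        congrArg (fun T : Ell2 (I × ((J × Λ) × (K × Λ))) →L[ℂ]
          Ell2 (I × ((J × Λ) × (K × Λ))) => T (VT J K (α p.1) ω')) (kC p.2).symm
      rw [e4, ← adjoint_inner_right, PT_adj hα hβ hγ,
        show PT α β γ (y : Ell2 (I × ((J × Λ) × (K × Λ)))) = y from y.2, hω', map_sum, map_sum]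
      simp only [map_smul]
    simp_rw [e1]
    exact bes_sum F _ (fun x (p : Γ × Γ) => R2T I J (γ p.2) (VT J K (α p.1) (dl x)))
      (fun x _ y => bes_dl hα hγ x y) _

end mod

end Vale.Agent.P092.H958
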