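import Vale.Agent.P092.H958.OrbE
import Vale.Agent.P092.H958.BesT
import Vale.Agent.P092.H958.AmpD
import Vale.Agent.P092.H34.AmpF
import Vale.Agent.P092.H252.DU.Orb
import Vale.Agent.P092.H264.AmpC

/-!
P092, all amplifications (helper958): (ORB) for the amplified model `HH (PT α β γ)` and every finite
Parseval family, any source group; the form `SD.ORBF` for `SL_3(k)`.
-/

set_option linter.all false

open scoped InnerProductSpace ENNReal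
open Set Filter Topology MeasureTheory ContinuousLinearMap

namespace Vale.Agent.P092.H958

open Vale.Agent.P092.RC Vale.Agent.P092.H790 Vale.Agent.P092.H85 Vale.Agent.P092.H160
  Vale.Agent.P092.H103 Vale.Agent.P092.H34 Vale.Agent.P092.H34.Ind Vale.Agent.P092.H34.AmpE
  Vale.Agent.P092.H962
open Vale.Agent.P092.H368.SN (Spr md md_pos md_nonneg wl tv spr_wl continuous_tv)

section gen

variable {E : Type} [Group E] [TopologicalSpace E] [IsTopologicalGroup E] [LocallyCompactSpace E]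
  [SecondCountableTopology E] [T2Space E] [MeasurableSpace E] [BorelSpace E]
  {Λ : Subgroup E} [DiscreteTopology Λ] [Countable Λ] [MeasurableSpace (E ⧸ Λ)]
  [BorelSpace (E ⧸ Λ)] {ν : Measure (E ⧸ Λ)} [IsProbabilityMeasure ν]
  (hν : ∀ g : E, ν.map (fun x => g • x) = ν)
  {P : Type} [NormedAddCommGroup P] [ProperSpace P] [MeasurableSpace P] [BorelSpace P]
  {μ : Measure P} [IsFiniteMeasureOnCompacts μ]

section tri

variable {ℋ : Type} [NormedAddCommGroup ℋ] [InnerProductSpace ℂ ℋ] [CompleteSpace ℋ]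
  {V R₁ R₂ : Λ →* (ℋ →L[ℂ] ℋ)} (hV : ∀ v, adjoint (V v) = V v⁻¹)
  {I : Type} [Countable I] (b : HilbertBasis I ℂ ℋ) {ι : Type} [Fintype ι] {ξ : ι → ℋ}

theorem frame_two (h : SR.Tri V R₁ R₂ ξ) (y : ℋ) :
    ∑' (k : ι × Λ) (s : Λ), ‖⟪R₁ k.2 (ξ k.1), R₂ s y⟫_ℂ‖ₑ ^ 2 = ‖y‖ₑ ^ 2 := by
  have e0 := (H421.Hs.tri_frq₂ h) y
  rw [ENNReal.tsum_prod'] at e0
  rw [← e0]
  refine tsum_congr fun k => ?_
  have e := (Equiv.inv Λ).tsum_eq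
    (fun s : Λ => (‖⟪R₂ s (R₁ k.2 (ξ k.1)), y⟫_ℂ‖ₑ ^ 2 : ℝ≥0∞))
  rw [← e]
  refine tsum_congr fun s => ?_
  rw [Equiv.inv_apply, ← h.adj₂, adjoint_inner_left]

include b in
/-- **(ORB) for a finite Parseval family of any fibre** whose orbits are approximated by Bessel
families. -/
theorem orb_tri {b₀ : E} {n : P → E} {ρ : ℝ} (hn : Continuous n) (hspr : Spr μ b₀ n ρ)
    (h : SR.Tri V R₁ R₂ ξ)
    (hbes : ∀ ω : ℋ, ∀ ε > 0, ∃ (C : ℝ) (a : Λ → ℋ), (∀ v, ‖V v ω - a v‖ ≤ ε) ∧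
      ∀ y : ℋ, ∑' p : Λ × Λ, ‖⟪R₂ p.2 (a p.1), y⟫_ℂ‖ₑ ^ 2 ≤ ENNReal.ofReal C * ‖y‖ₑ ^ 2) :
    ORBGF μ b₀ n ρ (Ind.pi (cdat ν hν) hV) (Ind.lam (cdat ν hν) R₁)
      (Xset (cdat ν hν) ℋ ∪ Set.range (Ind.lam (cdat ν hν) R₂)) (nrm hν ξ) := by
  obtain ⟨S, hS⟩ : ∃ S : ℝ, S = ∑ j, ‖ξ j‖ ^ 2 := ⟨_, rfl⟩
  have hS0 : 0 < S := by
    rw [hS]
    obtain ⟨i, hi⟩ := h.ne
    exact Finset.sum_pos' (fun _ _ => sq_nonneg _)
      ⟨i, Finset.mem_univ _, by have := norm_pos_iff.2 hi; positivity⟩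
  obtain ⟨s, hs⟩ : ∃ s : ℂ, s = (((Real.sqrt (∑ j, ‖ξ j‖ ^ 2))⁻¹ : ℝ) : ℂ) := ⟨_, rfl⟩
  have hsn : ‖s‖ ^ 2 = S⁻¹ := by
    rw [hs, Complex.norm_real, Real.norm_eq_abs, sq_abs, inv_pow, ← hS, Real.sq_sqrt hS0.le]
  have e0 : nrm hν ξ = fun i => H103.cst ν (s • ξ i) := by rw [hs]; rfl
  have htr : ∀ T', Cm (Xset (cdat ν hν) ℋ ∪ Set.range (Ind.lam (cdat ν hν) R₂)) T' →
      TRNF (Ind.lam (cdat ν hν) R₁) (nrm hν ξ) (adjoint T') =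
        TRNF (Ind.lam (cdat ν hν) R₁) (nrm hν ξ) T' := fun T' hT' => tr_adj_tri hν b h hT'
  rw [e0] at htr ⊢
  refine orbgf_of (T := fun s : Λ => R₂ s) (d := fun k : ι × Λ => R₁ k.2 (s • ξ k.1)) (c' := S)
    hν hV hn hspr (fun A hA => Or.inl ⟨A, hA, rfl⟩) (fun s => Or.inr ⟨s, rfl⟩) ?_ ?_
    (fun i ε hε => hbes _ ε hε) ?_ htr
  · intro i
    have h1 : ‖s • ξ i‖ ^ 2 ≤ 1 := by
      rw [norm_smul, mul_pow, hsn, inv_mul_le_iff₀ hS0, mul_one, hS]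
      exact Finset.single_le_sum (f := fun j => ‖ξ j‖ ^ 2) (fun _ _ => sq_nonneg _)
        (Finset.mem_univ i)
    nlinarith [norm_nonneg (s • ξ i)]
  · intro i k
    refine Lp.ext ?_
    filter_upwards [fld_comp (μ := ν) (R₁ k) (Lp.const 2 ν (s • ξ i)),
      Lp.coeFn_const (p := 2) (μ := ν) (s • ξ i),
      Lp.coeFn_const (p := 2) (μ := ν) (R₁ k (s • ξ i))] with x a1 a2 a3
    refine Eq.trans ?_ a3.symm
    refine a1.trans ?_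
    rw [a2]
    rfl
  · intro y
    have h1 : ∀ (k : ι × Λ) (t : Λ), ‖⟪R₁ k.2 (s • ξ k.1), R₂ t y⟫_ℂ‖ₑ ^ 2 =
        ENNReal.ofReal S⁻¹ * ‖⟪R₁ k.2 (ξ k.1), R₂ t y⟫_ℂ‖ₑ ^ 2 := by
      intro k t
      rw [map_smul, inner_smul_left, esq', esq', ← ENNReal.ofReal_mul (inv_nonneg.2 hS0.le),
        norm_mul, mul_pow, RCLike.norm_conj, hsn]
    simp_rw [h1]
    simp_rw [ENNReal.tsum_mul_left]
    rw [frame_two h, ← mul_assoc, ← ENNReal.ofReal_mul hS0.le, mul_inv_cancel₀ hS0.ne',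
      ENNReal.ofReal_one, one_mul]

end tri

variable {Θ I J K : Type} [Group Θ] [Fintype I] [Fintype J] [Fintype K]
  {α : Λ → (Ell2 (I × Θ) →L[ℂ] Ell2 (I × Θ))} {β : Λ → (Ell2 (J × Θ) →L[ℂ] Ell2 (J × Θ))}
  {γ : Λ → (Ell2 (K × Θ) →L[ℂ] Ell2 (K × Θ))} (hα : AF α) (hβ : AF β) (hγ : AF γ)

/-- **(ORB) for the amplified model**, any source group, any finite Parseval family. -/
theorem orb_HH {b₀ : E} {n : P → E} {ρ : ℝ} (hn : Continuous n) (hspr : Spr μ b₀ n ρ)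
    {ι : Type} [Fintype ι] {ξ : ι → HH (PT α β γ)}
    (hT : SR.Tri (V3 hα hβ hγ) (A3R hα hβ hγ) (B3R hα hβ hγ) ξ) :
    ORBGF μ b₀ n ρ (Ind.pi (cdat ν hν) (V := V3 hα hβ hγ) hT.adjV)
      (Ind.lam (cdat ν hν) (A3R hα hβ hγ))
      (Xset (cdat ν hν) (HH (PT α β γ)) ∪ Set.range (Ind.lam (cdat ν hν) (B3R hα hβ hγ)))
      (nrm hν ξ) := by
  obtain ⟨I', hI, ⟨b⟩⟩ := H264.Amp.exists_basis (H264.Amp.pars_of_tri hT)
  exact orb_tri hν hT.adjV b hn hspr hT fun ω ε hε => bes_orbit hα hβ hγ ω hε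

end gen

section g3

open Vale.Agent.P092.SD (G3 bw un ORBF)

variable {k : Type} [NontriviallyNormedField k] [ProperSpace k] [MeasurableSpace k] [BorelSpace k]
  {μ : Measure k} [μ.IsAddHaarMeasure]

omit [BorelSpace k] in
theorem orbF_of_orbgf {w : kˣ} (hm : md w ≤ ‖(w : k)‖) {Γ K ι : Type} [Fintype ι]
    [Group Γ] [NormedAddCommGroup K] [InnerProductSpace ℂ K] [CompleteSpace K]
    {π : G3 k →* (K →L[ℂ] K)} {lam : Γ →* (K →L[ℂ] K)} {W : Set (K →L[ℂ] K)} {Ω : ι → K}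
    (h : ORBGF μ (bw w : G3 k) (un : k → G3 k) (md w ^ 3) π lam W Ω) :
    ORBF μ w π lam W Ω := by
  intro i g δ hδ
  obtain ⟨C, hC⟩ := h i g δ hδ
  refine ⟨|C|, fun N T hT hT1 => (hC N T hT hT1).trans ?_⟩
  gcongr
  · exact pow_nonneg (pow_nonneg (md_nonneg w) _) _
  · exact le_abs_self C
  · rw [← pow_mul]
    exact pow_le_pow_left₀ (md_nonneg w) hm _

variable [LocallyCompactSpace (G3 k)]
  [SecondCountableTopology (G3 k)] [MeasurableSpace (G3 k)] [BorelSpace (G3 k)]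
  {Γ : Subgroup (G3 k)} [DiscreteTopology Γ] [Countable Γ] [MeasurableSpace (G3 k ⧸ Γ)]
  [BorelSpace (G3 k ⧸ Γ)] {ν : Measure (G3 k ⧸ Γ)} [IsProbabilityMeasure ν]
  (hν : ∀ g : G3 k, ν.map (fun x => g • x) = ν)
  {Θ I J K : Type} [Group Θ] [Fintype I] [Fintype J] [Fintype K]
  {α : Γ → (Ell2 (I × Θ) →L[ℂ] Ell2 (I × Θ))} {β : Γ → (Ell2 (J × Θ) →L[ℂ] Ell2 (J × Θ))}
  {γ : Γ → (Ell2 (K × Θ) →L[ℂ] Ell2 (K × Θ))} (hα : AF α) (hβ : AF β) (hγ : AF γ)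

/-- **The field `orb` of `SD.LegF`**, any local field with `md w ≤ ‖w‖`. -/
theorem orbF_T {w : kˣ} (hm : md w ≤ ‖(w : k)‖) {ι : Type} [Fintype ι] {ξ : ι → HH (PT α β γ)}
    (hT : SR.Tri (V3 hα hβ hγ) (A3R hα hβ hγ) (B3R hα hβ hγ) ξ) :
    ORBF μ w (Ind.pi (cdat ν hν) (V := V3 hα hβ hγ) hT.adjV)
      (Ind.lam (cdat ν hν) (A3R hα hβ hγ))
      (Xset (cdat ν hν) (HH (PT α β γ)) ∪ Set.range (Ind.lam (cdat ν hν) (B3R hα hβ hγ)))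
      (nrm hν ξ) := by
  have h01 : (0 : Fin 3) ≠ 1 := by decide
  have h1 := orb_HH (μ := μ) hν hα hβ hγ (continuous_tv h01) (spr_wl (μ := μ) h01 w) hT
  rw [← H252.DU.bw_eq] at h1
  exact orbF_of_orbgf hm h1

end g3

end Vale.Agent.P092.H958
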