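import Vale.Agent.P092.SPT.Amp
import Vale.Agent.P092.H71.P.SizeSp
import Vale.Agent.P092.H421.GrT7
import Vale.Agent.P092.H958.OrbT
import Vale.Agent.P092.H962.C.PicT
import Vale.Agent.P092.H458.T.HalfE
import Vale.Agent.P092.H458.T.Half

/-!
P092, TEAM P, all amplifications (helper958), [P-ALLT] (3): the fields `ms`, `uc`, `orb1`, `orb1'`,
`orb2`, `orb2'`, `size1`, `size2` of `SP.X.PBF` for the first leg of the model `HH (PT α α α)` with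
an honest family, for every lattice of every admissible source group `E` and for target maps `q`
which are homomorphisms modulo scalars. The only input is the gap of the two wall elements.
-/

set_option linter.all false

open scoped InnerProductSpace ENNReal LinearAlgebra.Projectivization
open Set Filter Topology MeasureTheory ContinuousLinearMap

namespace Vale.Agent.P092.H958

open Vale.Agent.P092.RC (PG Cm TRNF)
open Vale.Agent.P092.SP (B1 B2 Lg Lg' Sh Sh' Adm nm m2 PH)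
open Vale.Agent.P092.SP.X (ORBF)
open Vale.Agent.P092.SP4
open Vale.Agent.P092.SD (MsF UC)
open Vale.Agent.P092.H790.CTA (SIZEG)
open Vale.Agent.P092.H160 Vale.Agent.P092.H103 Vale.Agent.P092.H962 Vale.Agent.P092.H85
open Vale.Agent.P092.H34 Vale.Agent.P092.H34.Ind Vale.Agent.P092.H34.AmpE
open Vale.Agent.P092.SR (Tri)
open Vale.Agent.P092.H21 (Hon mT)
open Vale.Agent.P092.H859.CL (st)
open Vale.Agent.P092.H933 (LeviGap)
open Vale.Agent.P092.H725.SN (SZ3 Dq flt_Dq Dq_le)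
open Vale.Agent.P092.H368.SN (Spr md md_pos md_nonneg md_lt_one)
open Vale.Agent.P092.H71.P (r1 r2 spr1_sh' spr1_lg spr2_lg₀ spr2_sh'₀ adm_proper Sh'_cont Lg_cont
  m2_le_nm)
open Vale.Agent.P092.H421.GrT (MskL sz3_HH₁ sz3_exp_exp)

/-! ### Sizes dominated by a power -/

section pow

variable {E Γ K κ : Type} [Group E] [Group Γ] [NormedAddCommGroup K] [InnerProductSpace ℂ K]
  [CompleteSpace K] [Fintype κ] {lam : Γ →* (K →L[ℂ] K)} {W : Set (K →L[ℂ] K)} {Ω : κ → K}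
  {m : Set Γ → (K →L[ℂ] K)} {π : E →* (K →L[ℂ] K)} {a : E} {σ σ' : Γ → ℝ} {i : κ}

theorem sz3_powF (hM : MsF lam W Ω m) (h : SZ3 a π (Ω i) m σ) (h0 : ∀ γ, 0 ≤ σ γ) {C : ℝ} {d : ℕ}
    (hσ : ∀ γ, σ' γ ≤ C * σ γ ^ d) : SZ3 a π (Ω i) m σ' := by
  intro g ε hε
  obtain ⟨c, hc⟩ := h g ε hε
  obtain ⟨L, hL⟩ := exists_nat_gt C
  have hL' : C ≤ Real.exp L := by
    have := Real.add_one_le_exp (L : ℝ)
    linarith
  refine ⟨d * c + L, fun N => le_trans (hM.mono (fun γ hγ => ?_) _) (hc N)⟩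
  by_contra hcon
  have hcon' : σ γ ≤ Real.exp ((c * (N + 1) ^ 3 : ℕ) : ℝ) := not_lt.1 hcon
  have hγ' : Real.exp (((d * c + L) * (N + 1) ^ 3 : ℕ) : ℝ) < σ' γ := hγ
  have h1 : σ γ ^ d ≤ Real.exp ((c * (N + 1) ^ 3 : ℕ) : ℝ) ^ d :=
    pow_le_pow_left₀ (h0 γ) hcon' d
  have h2 : C * σ γ ^ d ≤ Real.exp L * Real.exp ((c * (N + 1) ^ 3 : ℕ) : ℝ) ^ d :=
    (mul_le_mul_of_nonneg_right hL' (pow_nonneg (h0 γ) d)).trans
      (mul_le_mul_of_nonneg_left h1 (Real.exp_nonneg _))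
  have h3 : Real.exp L * Real.exp ((c * (N + 1) ^ 3 : ℕ) : ℝ) ^ d ≤
      Real.exp (((d * c + L) * (N + 1) ^ 3 : ℕ) : ℝ) := by
    rw [← Real.exp_nat_mul, ← Real.exp_add]
    refine Real.exp_le_exp.2 ?_
    have h4 : (L + d * (c * (N + 1) ^ 3) : ℕ) ≤ (d * c + L) * (N + 1) ^ 3 := by
      have h5 : 1 ≤ (N + 1) ^ 3 := Nat.one_le_pow _ _ (Nat.succ_pos N)
      nlinarith
    have h6 : ((L + d * (c * (N + 1) ^ 3) : ℕ) : ℝ) ≤ (((d * c + L) * (N + 1) ^ 3 : ℕ) : ℝ) := by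
      exact_mod_cast h4
    refine le_trans (le_of_eq ?_) h6
    push_cast
    ring
  exact absurd (hσ γ) (not_le.2 ((h2.trans h3).trans_lt hγ'))

end pow

/-! ### One leg -/

section leg

variable {k : Type} [NontriviallyNormedField k] [ProperSpace k] [MeasurableSpace k] [BorelSpace k]

/-- the fields `ms`, `uc`, `orb1`, `orb1'`, `orb2`, `orb2'`, `size1`, `size2` of `SP.X.PBF`, and the
sizes for `m2` -/
structure PBoF {E Γ K κ : Type} [Group E] [TopologicalSpace E] [Group Γ] [NormedAddCommGroup K]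
    [InnerProductSpace ℂ K] [CompleteSpace K] [Fintype κ] (μ : Measure k) (w : kˣ)
    (ι : S4 k →* E) (π : E →* (K →L[ℂ] K)) (lam : Γ →* (K →L[ℂ] K)) (W : Set (K →L[ℂ] K))
    (Ω : κ → K) (m : Set Γ → (K →L[ℂ] K)) (q : Γ → S4 k) : Prop where
  ms : MsF lam W Ω m
  uc : ∀ i, UC π W (Ω i) m
  orb1 : ORBF μ ι π lam W Ω (B1 w) Sh'
  orb1' : ORBF μ ι π lam W Ω (B1 w) Lg
  orb2 : ORBF μ ι π lam W Ω (B2 w) Lg
  orb2' : ORBF μ ι π lam W Ω (B2 w) Sh'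
  size1 : ∀ i, SIZEG (ι (B1 w)) π (Ω i) m fun γ => nm (q γ)
  size2 : ∀ i, SIZEG (ι (B2 w)) π (Ω i) m fun γ => nm (q γ)
  msize1 : ∀ i, SIZEG (ι (B1 w)) π (Ω i) m fun γ => m2 (q γ)
  msize2 : ∀ i, SIZEG (ι (B2 w)) π (Ω i) m fun γ => m2 (q γ)

variable {μ : Measure k} [μ.IsAddHaarMeasure]
  {E : Type} [Group E] [TopologicalSpace E] [IsTopologicalGroup E] [LocallyCompactSpace E]
  [SecondCountableTopology E] [T2Space E] [MeasurableSpace E] [BorelSpace E]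
  {ι : S4 k →* E} {a : E →* PG k 4}
  {Γ : Subgroup E} [DiscreteTopology Γ] [Countable Γ] [MeasurableSpace (E ⧸ Γ)]
  [BorelSpace (E ⧸ Γ)] {ν : Measure (E ⧸ Γ)} [IsProbabilityMeasure ν]
  (hν : ∀ g : E, ν.map (fun x => g • x) = ν)
  (hΓ : ∀ g : Γ, g ≠ 1 → Set.Infinite {y : Γ | ∃ h, y = h * g * h⁻¹})
  {Λ : Type} [Group Λ] [Countable Λ]
  (hΛ : ∀ s : Λ, s ≠ 1 → Set.Infinite {y : Λ | ∃ h, y = h * s * h⁻¹})
  {I : Type} [Fintype I] {α : Γ → (Ell2 (I × Λ) →L[ℂ] Ell2 (I × Λ))} (hα : AF α)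
  {κ : Type} [Fintype κ] {ξ : κ → HH (PT α α α)}
  (hT : Tri (V3 hα hα hα) (A3R hα hα hα) (B3R hα hα hα) ξ)
  (hh : Hon (A3R hα hα hα) (B3R hα hα hα) ξ)

include hΓ hΛ in
/-- **`MsF`, any source group.** -/
theorem msF_HHE (hh : Hon (A3R hα hα hα) (B3R hα hα hα) ξ) :
    MsF (Ind.lam (cdat ν hν) (A3R hα hα hα))
      (Xset (cdat ν hν) (HH (PT α α α)) ∪ Set.range (Ind.lam (cdat ν hν) (B3R hα hα hα)))
      (nrm hν ξ) (st (mT (cdat ν hν) hT)) := by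
  obtain ⟨m', m'', ζ, h'⟩ := exists_tri' hα hα hα hΛ
  exact H458.HalfT.msF_E (cdat ν hν) hT hh h' hΓ (RC.nrm_ne hT.ne)

/-- `UC`, any source group. -/
theorem uc_HHE (i : κ) : UC (Ind.pi (cdat ν hν) (V := V3 hα hα hα) hT.adjV)
    (Xset (cdat ν hν) (HH (PT α α α)) ∪ Set.range (Ind.lam (cdat ν hν) (B3R hα hα hα)))
    (nrm hν ξ i) (st (mT (cdat ν hν) hT)) :=
  H458.HalfT.uc_T hν hT (H458.HalfT.norm_nrm_le ξ i)

/-- the orbit field -/
theorem orbF_HHE {b : S4 k} {n : k → S4 k} {ρ : ℝ} (h0 : 0 < ρ) (h1 : ρ < 1)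
    (hn : Continuous fun s => ι (n s)) (hs : Spr μ (ι b) (fun s => ι (n s)) ρ) :
    ORBF μ ι (Ind.pi (cdat ν hν) (V := V3 hα hα hα) hT.adjV)
      (Ind.lam (cdat ν hν) (A3R hα hα hα))
      (Xset (cdat ν hν) (HH (PT α α α)) ∪ Set.range (Ind.lam (cdat ν hν) (B3R hα hα hα)))
      (nrm hν ξ) b n :=
  ⟨ρ, h0, h1, orb_HH hν hα hα hα hn hs hT⟩

variable {q : Γ → S4 k} (hq : PH q)

include hΓ hΛ hq in
/-- polynomial sizes for every element with the gap -/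
theorem size_HHE (hh : Hon (A3R hα hα hα) (B3R hα hα hα) ξ) {b : E} (hb : LeviGap b) (i : κ) :
    SZ3 b (Ind.pi (cdat ν hν) (V := V3 hα hα hα) hT.adjV) (nrm hν ξ i)
      (st (mT (cdat ν hν) hT)) fun γ => nm (q γ) :=
  sz3_HH₁ hν hα hα hα hΓ hΛ hT.adjV hT (MskL.of_msF (msF_HHE hν hΓ hΛ hα hT hh))
    (flt_Dq (q := fun γ => (q γ).1) hq)
    (fun J γ hγ => (le_max_left _ _).trans (Dq_le (q := fun γ => (q γ).1) hq J γ hγ)) hb i

include hΓ hΛ hq in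
/-- **The eight fields, first leg, all amplifications, any admissible source group.** -/
theorem pboF (h : Adm ι a) {w : kˣ} (hw : ‖(w : k)‖ < 1) (h1 : LeviGap (ι (B1 w)))
    (h2 : LeviGap (ι (B2 w))) (hh : Hon (A3R hα hα hα) (B3R hα hα hα) ξ) :
    PBoF μ w ι (Ind.pi (cdat ν hν) (V := V3 hα hα hα) hT.adjV)
      (Ind.lam (cdat ν hν) (A3R hα hα hα))
      (Xset (cdat ν hν) (HH (PT α α α)) ∪ Set.range (Ind.lam (cdat ν hν) (B3R hα hα hα)))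
      (nrm hν ξ) (st (mT (cdat ν hν) hT)) q where
  ms := msF_HHE hν hΓ hΛ hα hT hh
  uc := uc_HHE hν hα hT
  orb1 := orbF_HHE hν hα hT (r1 w hw).1 (r1 w hw).2 (h.cι.comp Sh'_cont)
    (spr1_sh' (adm_proper h) w)
  orb1' := orbF_HHE hν hα hT (r2 w hw).1 (r2 w hw).2 (h.cι.comp Lg_cont)
    (spr1_lg (adm_proper h) w)
  orb2 := orbF_HHE hν hα hT (r2 w hw).1 (r2 w hw).2 (h.cι.comp Lg_cont)
    (spr2_lg₀ (adm_proper h) w)
  orb2' := orbF_HHE hν hα hT (r2 w hw).1 (r2 w hw).2 (h.cι.comp Sh'_cont)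
    (spr2_sh'₀ (adm_proper h) w)
  size1 i := sz3_exp_exp (MskL.of_msF (msF_HHE hν hΓ hΛ hα hT hh))
    (size_HHE hν hΓ hΛ hα hT hq hh h1 i)
  size2 i := sz3_exp_exp (MskL.of_msF (msF_HHE hν hΓ hΛ hα hT hh))
    (size_HHE hν hΓ hΛ hα hT hq hh h2 i)
  msize1 i := sz3_exp_exp (MskL.of_msF (msF_HHE hν hΓ hΛ hα hT hh))
    (sz3_powF (msF_HHE hν hΓ hΛ hα hT hh) (size_HHE hν hΓ hΛ hα hT hq hh h1 i)
      (fun γ => norm_nonneg _) fun γ => m2_le_nm (q γ))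
  msize2 i := sz3_exp_exp (MskL.of_msF (msF_HHE hν hΓ hΛ hα hT hh))
    (sz3_powF (msF_HHE hν hΓ hΛ hα hT hh) (size_HHE hν hΓ hΛ hα hT hq hh h2 i)
      (fun γ => norm_nonneg _) fun γ => m2_le_nm (q γ))

end leg

end Vale.Agent.P092.H958
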