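import Vale.Agent.P092.CL.Defs
import Vale.Agent.P092.H958.PBoF

/-!
P092, stages 2 and 3, all amplifications (helper958): the fields `ms`, `uc`, `orb1`, `orb2`,
`orb2'`, `size1`, `size2` of the base record of `CL/Defs` for the first leg of the model
`HH (PT α α α)` with an honest family, for every letters `L : CL.Lt`, every lattice of every source
group `E` and for target maps `q` which are homomorphisms modulo `L.Z`. Inputs: the spreads of the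
root groups along the wall elements and the gap of the two wall elements.
-/

set_option linter.all false

open scoped InnerProductSpace ENNReal
open Set Filter Topology MeasureTheory ContinuousLinearMap

namespace Vale.Agent.P092.H958.CLo

open Vale.Agent.P092.RC (Cm TRNF)
open Vale.Agent.P092.CL (Lt)
open Vale.Agent.P092.SD (MsF UC)
open Vale.Agent.P092.H790.CTA (SIZEG)
open Vale.Agent.P092.H160 Vale.Agent.P092.H103 Vale.Agent.P092.H962 Vale.Agent.P092.H85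
open Vale.Agent.P092.H34 Vale.Agent.P092.H34.Ind Vale.Agent.P092.H34.AmpE
open Vale.Agent.P092.SR (Tri)
open Vale.Agent.P092.H21 (Hon mT)
open Vale.Agent.P092.H859.CL (st)
open Vale.Agent.P092.H933 (LeviGap Flt)
open Vale.Agent.P092.H725.SN (SZ3 NmS DS flt_DS DS_le)
open Vale.Agent.P092.H368.SN (Spr)
open Vale.Agent.P092.H421.GrT (MskL sz3_HH₁ sz3_exp_exp)

section szq

variable {S P M V₁ V₂ : Type} [Group S] [MeasurableSpace V₁] [MeasurableSpace V₂]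
  {L : Lt S P M V₁ V₂} {Γ : Type} [Group Γ] {q : Γ → S}

/-- the size of a homomorphism modulo scalars is submultiplicative -/
theorem nms_of (hq : L.PH q) (h0 : ∀ g, 0 < L.nm g)
    (hz : ∀ z ∈ L.Z, ∀ g, L.nm (z * g) = L.nm g)
    (hm : ∃ C : ℝ, 0 < C ∧ ∀ g h, L.nm (g * h) ≤ C * (L.nm g * L.nm h)) :
    ∃ C : ℝ, NmS (fun γ => L.nm (q γ)) C := by
  obtain ⟨C, hC, h⟩ := hm
  refine ⟨max C 1, fun γ => (h0 _).le, fun γ γ' => ?_, le_max_right _ _⟩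
  obtain ⟨z, hz', e⟩ := hq γ γ'
  have h1 : 0 ≤ L.nm (q γ) * L.nm (q γ') := mul_nonneg (h0 _).le (h0 _).le
  calc L.nm (q (γ * γ')) = L.nm (q γ * q γ') := by rw [e, hz z hz']
    _ ≤ C * (L.nm (q γ) * L.nm (q γ')) := h _ _
    _ ≤ max C 1 * (L.nm (q γ) * L.nm (q γ')) := mul_le_mul_of_nonneg_right (le_max_left _ _) h1
    _ = max C 1 * L.nm (q γ) * L.nm (q γ') := (mul_assoc _ _ _).symm

/-- a filtration of `Γ` which dominates the size -/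
theorem exists_flt (hq : L.PH q) (h0 : ∀ g, 0 < L.nm g)
    (hz : ∀ z ∈ L.Z, ∀ g, L.nm (z * g) = L.nm g)
    (hm : ∃ C : ℝ, 0 < C ∧ ∀ g h, L.nm (g * h) ≤ C * (L.nm g * L.nm h)) :
    ∃ D : ℕ → Set Γ, Flt D ∧ ∀ J γ, γ ∈ D J → L.nm (q γ) ≤ Real.exp J := by
  obtain ⟨C, hN⟩ := nms_of hq h0 hz hm
  exact ⟨DS (fun γ => L.nm (q γ)) C (MonoidHom.id Γ), flt_DS hN _, fun J γ h =>
    DS_le hN (q := MonoidHom.id Γ) h⟩

end szq

/-- the fields `ms`, `uc`, `orb1`, `orb2`, `orb2'`, `size1`, `size2` of the base record for a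
family of vectors -/
structure CLoF {S P M V₁ V₂ : Type} [Group S] [MeasurableSpace V₁] [MeasurableSpace V₂]
    [NormedAddCommGroup V₁] [NormedAddCommGroup V₂] (L : Lt S P M V₁ V₂)
    {E Γ K κ : Type} [Group E] [TopologicalSpace E] [Group Γ] [NormedAddCommGroup K]
    [InnerProductSpace ℂ K] [CompleteSpace K] [Fintype κ] (ι : S →* E) (π : E →* (K →L[ℂ] K))
    (lam : Γ →* (K →L[ℂ] K)) (W : Set (K →L[ℂ] K)) (Ω : κ → K) (m : Set Γ → (K →L[ℂ] K))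
    (q : Γ → S) : Prop where
  ms : MsF lam W Ω m
  uc : ∀ i, UC π W (Ω i) m
  orb1 : ∃ ρ : ℝ, 0 < ρ ∧ ρ < 1 ∧
    SNT.ORBGF L.μ₁ (ι L.b1) (fun s => ι (L.u1 s)) ρ π lam W Ω
  orb2 : ∃ ρ : ℝ, 0 < ρ ∧ ρ < 1 ∧
    SNT.ORBGF L.μ₂ (ι L.b2) (fun s => ι (L.u2 s)) ρ π lam W Ω
  orb2' : ∃ ρ : ℝ, 0 < ρ ∧ ρ < 1 ∧
    SNT.ORBGF L.μ₁ (ι L.b2) (fun s => ι (L.u1 s)) ρ π lam W Ω
  size1 : ∀ i, SIZEG (ι L.b1) π (Ω i) m fun γ => L.nm (q γ)
  size2 : ∀ i, SIZEG (ι L.b2) π (Ω i) m fun γ => L.nm (q γ)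

section leg

variable {S P M V₁ V₂ : Type} [Group S] [MeasurableSpace V₁] [MeasurableSpace V₂]
  [NormedAddCommGroup V₁] [ProperSpace V₁] [BorelSpace V₁]
  [NormedAddCommGroup V₂] [ProperSpace V₂] [BorelSpace V₂]
  {L : Lt S P M V₁ V₂} [IsFiniteMeasureOnCompacts L.μ₁] [IsFiniteMeasureOnCompacts L.μ₂]
  {E : Type} [Group E] [TopologicalSpace E] [IsTopologicalGroup E] [LocallyCompactSpace E]
  [SecondCountableTopology E] [T2Space E] [MeasurableSpace E] [BorelSpace E] {ι : S →* E}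
  {Γ : Subgroup E} [DiscreteTopology Γ] [Countable Γ] [MeasurableSpace (E ⧸ Γ)]
  [BorelSpace (E ⧸ Γ)] {ν : Measure (E ⧸ Γ)} [IsProbabilityMeasure ν]
  (hν : ∀ g : E, ν.map (fun x => g • x) = ν)
  (hΓ : ∀ g : Γ, g ≠ 1 → Set.Infinite {y : Γ | ∃ h, y = h * g * h⁻¹})
  {Λ : Type} [Group Λ] [Countable Λ]
  (hΛ : ∀ s : Λ, s ≠ 1 → Set.Infinite {y : Λ | ∃ h, y = h * s * h⁻¹})
  {I : Type} [Fintype I] {α : Γ → (Ell2 (I × Λ) →L[ℂ] Ell2 (I × Λ))} (hα : AF α)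
  {κ : Type} [Fintype κ] {ξ : κ → HH (PT α α α)}
  (hT : Tri (V3 hα hα hα) (A3R hα hα hα) (B3R hα hα hα) ξ)
  (hh : Hon (A3R hα hα hα) (B3R hα hα hα) ξ)

/-- the orbit field, any parameter group -/
theorem orbgf_HHE {V : Type} [NormedAddCommGroup V] [ProperSpace V] [MeasurableSpace V]
    [BorelSpace V] {μ : Measure V} [IsFiniteMeasureOnCompacts μ] {b : E} {n : V → E}
    (hn : Continuous n) (hs : ∃ ρ : ℝ, 0 < ρ ∧ ρ < 1 ∧ Spr μ b n ρ) :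
    ∃ ρ : ℝ, 0 < ρ ∧ ρ < 1 ∧
      SNT.ORBGF μ b n ρ (Ind.pi (cdat ν hν) (V := V3 hα hα hα) hT.adjV)
        (Ind.lam (cdat ν hν) (A3R hα hα hα))
        (Xset (cdat ν hν) (HH (PT α α α)) ∪ Set.range (Ind.lam (cdat ν hν) (B3R hα hα hα)))
        (nrm hν ξ) := by
  obtain ⟨ρ, h0, h1, hs⟩ := hs
  exact ⟨ρ, h0, h1, orb_HH hν hα hα hα hn hs hT⟩

variable {q : Γ → S}

include hΓ hΛ in
/-- polynomial sizes for every element with the gap and every filtered size -/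
theorem sz3_HHE (hh : Hon (A3R hα hα hα) (B3R hα hα hα) ξ) {b : E} (hb : LeviGap b)
    {D : ℕ → Set Γ} (hD : Flt D) {σ : Γ → ℝ} (hσ : ∀ J γ, γ ∈ D J → σ γ ≤ Real.exp J) (i : κ) :
    SZ3 b (Ind.pi (cdat ν hν) (V := V3 hα hα hα) hT.adjV) (nrm hν ξ i)
      (st (mT (cdat ν hν) hT)) σ :=
  sz3_HH₁ hν hα hα hα hΓ hΛ hT.adjV hT (MskL.of_msF (msF_HHE hν hΓ hΛ hα hT hh)) hD hσ hb i

include hΓ hΛ in
/-- **The seven fields of the base record, first leg, all amplifications, any letters.** -/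
theorem cloF (hq : L.PH q) (h0 : ∀ g, 0 < L.nm g) (hz : ∀ z ∈ L.Z, ∀ g, L.nm (z * g) = L.nm g)
    (hm : ∃ C : ℝ, 0 < C ∧ ∀ g h, L.nm (g * h) ≤ C * (L.nm g * L.nm h))
    (hu1 : Continuous fun s => ι (L.u1 s)) (hu2 : Continuous fun s => ι (L.u2 s))
    (hs1 : ∃ ρ : ℝ, 0 < ρ ∧ ρ < 1 ∧ Spr L.μ₁ (ι L.b1) (fun s => ι (L.u1 s)) ρ)
    (hs2 : ∃ ρ : ℝ, 0 < ρ ∧ ρ < 1 ∧ Spr L.μ₂ (ι L.b2) (fun s => ι (L.u2 s)) ρ)
    (hs2' : ∃ ρ : ℝ, 0 < ρ ∧ ρ < 1 ∧ Spr L.μ₁ (ι L.b2) (fun s => ι (L.u1 s)) ρ)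
    (h1 : LeviGap (ι L.b1)) (h2 : LeviGap (ι L.b2))
    (hh : Hon (A3R hα hα hα) (B3R hα hα hα) ξ) :
    CLoF L ι (Ind.pi (cdat ν hν) (V := V3 hα hα hα) hT.adjV)
      (Ind.lam (cdat ν hν) (A3R hα hα hα))
      (Xset (cdat ν hν) (HH (PT α α α)) ∪ Set.range (Ind.lam (cdat ν hν) (B3R hα hα hα)))
      (nrm hν ξ) (st (mT (cdat ν hν) hT)) q := by
  obtain ⟨D, hD, hσ⟩ := exists_flt hq h0 hz hm
  exact
    { ms := msF_HHE hν hΓ hΛ hα hT hh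
      uc := uc_HHE hν hα hT
      orb1 := orbgf_HHE hν hα hT hu1 hs1
      orb2 := orbgf_HHE hν hα hT hu2 hs2
      orb2' := orbgf_HHE hν hα hT hu1 hs2'
      size1 := fun i => sz3_exp_exp (MskL.of_msF (msF_HHE hν hΓ hΛ hα hT hh))
        (sz3_HHE hν hΓ hΛ hα hT hh h1 hD hσ i)
      size2 := fun i => sz3_exp_exp (MskL.of_msF (msF_HHE hν hΓ hΛ hα hT hh))
        (sz3_HHE hν hΓ hΛ hα hT hh h2 hD hσ i) }

end leg

end Vale.Agent.P092.H958.CLo
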