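import Vale.Agent.P092.H368.SN.Orb
import Vale.Agent.P092.H962.C.Amp

/-!
P092, all amplifications (helper958), block [ORB]: (ORB) for the induced picture of a lattice in an
arbitrary locally compact second countable group, for a finite family of vectors of the fibre whose
orbits `{V v (ω i)}` are uniformly approximated by Bessel families.
-/

set_option linter.all false

open scoped InnerProductSpace ENNReal
open Set Filter Topology MeasureTheory ContinuousLinearMap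

namespace Vale.Agent.P092.H958

open Vale.Agent.P092.H790 Vale.Agent.P092.H85 Vale.Agent.P092.H160 Vale.Agent.P092.H103
open Vale.Agent.P092.RC (Cm TRN TRNF)
open Vale.Agent.P092.H368 (ms ms_meas inn_meas lint_sq inner_ae)
open Vale.Agent.P092.H368.SN (Spr)

/-- `CTA.ORBG` for a family of vectors -/
def ORBGF {G Γ K ι P : Type} [Group G] [Group Γ] [NormedAddCommGroup K] [InnerProductSpace ℂ K]
    [CompleteSpace K] [NormedAddCommGroup P] [MeasurableSpace P] [Fintype ι] (μ : Measure P)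
    (b : G) (n : P → G) (ρ : ℝ) (π : G →* (K →L[ℂ] K)) (lam : Γ →* (K →L[ℂ] K))
    (W : Set (K →L[ℂ] K)) (Ω : ι → K) : Prop :=
  ∀ i, ∀ g : G, ∀ δ > 0, ∃ C : ℝ, ∀ N : ℕ, ∀ T, Cm W T → ‖T‖ ≤ 1 →
    ∫⁻ s in Metric.closedBall (0 : P) 1, ‖T (π (g * b ^ N * n s * g⁻¹)⁻¹ (Ω i))‖ₑ ^ 2 ∂μ ≤
      ENNReal.ofReal (C * ρ ^ N) * TRNF lam Ω T + ENNReal.ofReal δ

theorem sq_add_le {K : Type} [NormedAddCommGroup K] (u v : K) :
    ‖u‖ₑ ^ 2 ≤ 2 * ‖v‖ₑ ^ 2 + 2 * ‖u - v‖ₑ ^ 2 := by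
  have e : ∀ x : K, ‖x‖ₑ ^ 2 = ENNReal.ofReal (‖x‖ ^ 2) := fun x => by
    rw [← ofReal_norm, ENNReal.ofReal_pow (norm_nonneg _)]
  have h2 : (2 : ℝ≥0∞) = ENNReal.ofReal 2 := by simp
  rw [e, e, e, h2, ← ENNReal.ofReal_mul (by norm_num), ← ENNReal.ofReal_mul (by norm_num),
    ← ENNReal.ofReal_add (by positivity) (by positivity)]
  refine ENNReal.ofReal_le_ofReal ?_
  have h1 : ‖u‖ ≤ ‖v‖ + ‖u - v‖ := by
    have := norm_add_le v (u - v)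
    rwa [add_sub_cancel] at this
  nlinarith [norm_nonneg u, norm_nonneg v, norm_nonneg (u - v), sq_nonneg (‖v‖ - ‖u - v‖)]

section gen

variable {E : Type} [Group E] [TopologicalSpace E] [IsTopologicalGroup E] [LocallyCompactSpace E]
  [SecondCountableTopology E] [T2Space E] [MeasurableSpace E] [BorelSpace E]
  {Λ : Subgroup E} [DiscreteTopology Λ] [MeasurableSpace (E ⧸ Λ)] [BorelSpace (E ⧸ Λ)]
  {ν : Measure (E ⧸ Λ)} [IsProbabilityMeasure ν] (hν : ∀ g : E, ν.map (fun x => g • x) = ν)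
  {K : Type} [NormedAddCommGroup K] [InnerProductSpace ℂ K] [CompleteSpace K]
  {V : Λ →* (K →L[ℂ] K)} (hVa : ∀ v, adjoint (V v) = V v⁻¹) [Countable Λ]

/-- a decomposable operator on constant fields, pointwise -/
theorem dcp_cst {T : Lp K 2 ν →L[ℂ] Lp K 2 ν} (hT : Dcp T) (u v : K) :
    ∀ᵐ x ∂ν, ‖(T (cst ν u)) x‖ₑ ^ 2 ≤
      2 * ‖(T (cst ν v)) x‖ₑ ^ 2 + 2 * (‖T‖ₑ ^ 2 * ‖u - v‖ₑ ^ 2) := by
  filter_upwards [hT.norm_ae (cst ν u - cst ν v), Lp.coeFn_sub (T (cst ν u)) (T (cst ν v)),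
    Lp.coeFn_sub (cst ν u : Lp K 2 ν) (cst ν v), cst_ae (ν := ν) u, cst_ae (ν := ν) v]
    with x h1 h2 h3 h4 h5
  rw [map_sub, h2, h3, Pi.sub_apply, Pi.sub_apply, h4, h5] at h1
  refine (sq_add_le _ ((T (cst ν v)) x)).trans ?_
  gcongr

include hVa in
/-- `main_param` with an approximate family. -/
theorem main_paramE {S : Type*} [MeasurableSpace S] {μ : Measure S} [IsFiniteMeasure μ] {φ : S → E}
    (hφ : Measurable φ) {T : Lp K 2 ν →L[ℂ] Lp K 2 ν} (hT : Dcp T)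
    {ω : K} (hω : ‖ω‖ ≤ 1) {a : Λ → K} {ε : ℝ} (ha : ∀ v, ‖V v ω - a v‖ ≤ ε)
    {X₀ : Set (E ⧸ Λ)} (hX₀ : MeasurableSet X₀) {m : ℝ≥0∞}
    (hm : ∀ (x : E ⧸ Λ) (v : Λ), μ {s | (coc Λ (φ s) x)⁻¹ = v ∧ φ s • x ∈ X₀} ≤ m) :
    ∫⁻ s, ‖T (iro hν V (φ s)⁻¹ (cst ν ω))‖ₑ ^ 2 ∂μ ≤
      2 * (m * ∑' v : Λ, ‖T (cst ν (a v))‖ₑ ^ 2) +
        (2 * (‖T‖ₑ ^ 2 * ENNReal.ofReal (ε ^ 2)) + ‖T‖ₑ ^ 2 * ν X₀ᶜ) * μ univ := by
  haveI hcl : IsClosed (Λ : Set E) := Subgroup.isClosed_of_discrete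
  have hε : 0 ≤ ε := (norm_nonneg _).trans (ha 1)
  have hsm : Measurable fun p : S × (E ⧸ Λ) => φ p.1 • p.2 := by
    have h1 : Continuous fun p : E × (E ⧸ Λ) => p.1 • p.2 := continuous_smul
    exact h1.measurable.comp ((hφ.comp measurable_fst).prodMk measurable_snd)
  obtain ⟨ζ, hζ⟩ : ∃ ζ : Λ → Lp K 2 ν, ζ = fun v => T (cst ν (a v)) := ⟨_, rfl⟩
  obtain ⟨Q, hQ⟩ : ∃ Q : Λ → Set (S × (E ⧸ Λ)), Q = fun v =>
    {p | (coc Λ (φ p.1) p.2)⁻¹ = v ∧ φ p.1 • p.2 ∈ X₀} := ⟨_, rfl⟩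
  have hQm : ∀ v, MeasurableSet (Q v) := by
    intro v
    have e : Q v = {p | coc Λ (φ p.1) p.2 = v⁻¹} ∩ (fun p : S × (E ⧸ Λ) => φ p.1 • p.2) ⁻¹' X₀ := by
      rw [hQ]
      ext p
      simp only [mem_setOf_eq, mem_inter_iff, mem_preimage, inv_eq_iff_eq_inv]
    rw [e]
    refine MeasurableSet.inter ?_ (hsm hX₀)
    have h1 : Measurable fun p : S × (E ⧸ Λ) => (φ p.1, p.2) :=
      (hφ.comp measurable_fst).prodMk measurable_snd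
    exact h1 (coc_meas2 v⁻¹)
  have hζm : ∀ v, Measurable fun x => ‖(ζ v) x‖ₑ ^ 2 := fun v =>
    ((Lp.stronglyMeasurable (ζ v)).enorm).pow_const 2
  obtain ⟨f, hf⟩ : ∃ f : Λ → S × (E ⧸ Λ) → ℝ≥0∞, f = fun v p =>
    (Q v).indicator (fun p => ‖(ζ v) p.2‖ₑ ^ 2) p := ⟨_, rfl⟩
  have hfm : ∀ v, Measurable (f v) := by
    intro v
    rw [hf]
    exact ((hζm v).comp measurable_snd).indicator (hQm v)
  -- the approximation
  have happ : ∀ v : Λ, ∀ᵐ x ∂ν, ‖(T ((V v).compLpL 2 ν (cst ν ω))) x‖ₑ ^ 2 ≤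
      2 * ‖(ζ v) x‖ₑ ^ 2 + 2 * (‖T‖ₑ ^ 2 * ENNReal.ofReal (ε ^ 2)) := by
    intro v
    have e1 : (V v).compLpL 2 ν (cst ν ω) = cst ν (V v ω) := by
      refine Lp.ext ?_
      filter_upwards [(V v).coeFn_compLpL (p := 2) (cst ν ω : Lp K 2 ν), cst_ae (ν := ν) ω,
        cst_ae (ν := ν) (V v ω)] with x h1 h2 h3
      rw [h1, h2, h3]
    rw [e1, hζ]
    filter_upwards [dcp_cst hT (V v ω) (a v)] with x hx
    refine hx.trans ?_
    gcongr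
    rw [← ofReal_norm, ← ENNReal.ofReal_pow (norm_nonneg _)]
    exact ENNReal.ofReal_le_ofReal (pow_le_pow_left₀ (norm_nonneg _) (ha v) 2)
  -- for fixed `s`
  have h1 : ∀ s : S, ‖T (iro hν V (φ s)⁻¹ (cst ν ω))‖ₑ ^ 2 ≤
      2 * (∑' v, ∫⁻ x, f v (s, x) ∂ν) +
        (2 * (‖T‖ₑ ^ 2 * ENNReal.ofReal (ε ^ 2)) + ‖T‖ₑ ^ 2 * ν X₀ᶜ) := by
    intro s
    have hYm : MeasurableSet {x : E ⧸ Λ | φ s • x ∈ X₀} := (smul_meas Λ (φ s)) hX₀
    have hm' : ∀ v, Measurable fun x => f v (s, x) := fun v =>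
      (hfm v).comp measurable_prodMk_left
    rw [enorm_sq_Lp, ← lintegral_add_compl _ hYm, ← add_assoc]
    refine add_le_add ?_ ?_
    · calc ∫⁻ x in {x : E ⧸ Λ | φ s • x ∈ X₀}, ‖(T (iro hν V (φ s)⁻¹ (cst ν ω))) x‖ₑ ^ 2 ∂ν
          ≤ ∫⁻ x, (2 * ∑' v, f v (s, x)) + 2 * (‖T‖ₑ ^ 2 * ENNReal.ofReal (ε ^ 2)) ∂ν := by
            rw [← lintegral_indicator hYm]
            refine lintegral_mono_ae ?_
            filter_upwards [field_eq hν hVa hT ω (φ s), ae_all_iff.2 happ] with x hx hx2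
            by_cases hy : x ∈ {x : E ⧸ Λ | φ s • x ∈ X₀}
            · rw [Set.indicator_of_mem hy, hx]
              refine (hx2 _).trans ?_
              gcongr
              refine le_trans ?_ (ENNReal.le_tsum (coc Λ (φ s) x)⁻¹)
              rw [hf]
              dsimp only
              rw [Set.indicator_of_mem (show (s, x) ∈ Q (coc Λ (φ s) x)⁻¹ by
                rw [hQ]; exact ⟨rfl, hy⟩)]
            · rw [Set.indicator_of_notMem hy]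
              exact zero_le
        _ = _ := by
            rw [lintegral_add_right _ measurable_const, lintegral_const,
              lintegral_const_mul _ (Measurable.ennreal_tsum hm'),
              lintegral_tsum fun v => (hm' v).aemeasurable, measure_univ, mul_one]
    · have h2 : ∫⁻ x in {x : E ⧸ Λ | φ s • x ∈ X₀}ᶜ,
          ‖(T (iro hν V (φ s)⁻¹ (cst ν ω))) x‖ₑ ^ 2 ∂ν ≤
          ∫⁻ x in {x : E ⧸ Λ | φ s • x ∈ X₀}ᶜ, ‖T‖ₑ ^ 2 ∂ν := by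
        refine lintegral_mono_ae (ae_restrict_of_ae ?_)
        filter_upwards [hT.norm_ae (iro hν V (φ s)⁻¹ (cst ν ω)),
          iro_inv_ae hν hVa (φ s) (cst ν ω),
          ae_comp (mpres hν (φ s)) (cst_ae (ν := ν) ω)] with x a1 a2 a3
        refine a1.trans ?_
        have e1 : ‖V (coc Λ (φ s) x)⁻¹ ω‖ₑ ≤ 1 := by
          rw [← ofReal_norm, Vale.Agent.P092.H885.u_norm hVa, ← ENNReal.ofReal_one]
          exact ENNReal.ofReal_le_ofReal hω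
        rw [a2, a3]
        calc ‖T‖ₑ ^ 2 * ‖V (coc Λ (φ s) x)⁻¹ ω‖ₑ ^ 2 ≤ ‖T‖ₑ ^ 2 * 1 ^ 2 := by gcongr
          _ = ‖T‖ₑ ^ 2 := by rw [one_pow, mul_one]
      refine h2.trans ?_
      rw [setLIntegral_const]
      have h3 : ν {x : E ⧸ Λ | φ s • x ∈ X₀}ᶜ = ν X₀ᶜ :=
        (mpres hν (φ s)).measure_preimage hX₀.compl.nullMeasurableSet
      rw [h3]
  have h2 : ∀ v, ∫⁻ s, ∫⁻ x, f v (s, x) ∂ν ∂μ ≤ m * ‖ζ v‖ₑ ^ 2 := by
    intro v
    have hu : AEMeasurable (Function.uncurry fun s x => f v (s, x)) (μ.prod ν) :=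
      (hfm v).aemeasurable
    rw [lintegral_lintegral_swap hu, enorm_sq_Lp, ← lintegral_const_mul _ (hζm v)]
    refine lintegral_mono fun x => ?_
    have e1 : ∀ s, f v (s, x) = {s | (coc Λ (φ s) x)⁻¹ = v ∧ φ s • x ∈ X₀}.indicator
        (fun _ => ‖(ζ v) x‖ₑ ^ 2) s := by
      intro s
      rw [hf, hQ]
      rfl
    simp_rw [e1]
    have hm1 : MeasurableSet {s | (coc Λ (φ s) x)⁻¹ = v ∧ φ s • x ∈ X₀} := by
      have h3 : Measurable fun s : S => (s, x) := measurable_id.prodMk measurable_const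
      have h4 := h3 (hQm v)
      rw [hQ] at h4
      exact h4
    rw [lintegral_indicator hm1, setLIntegral_const, mul_comm]
    gcongr
    exact hm x v
  have hg : ∀ v, Measurable fun s => ∫⁻ x, f v (s, x) ∂ν := fun v =>
    (hfm v).lintegral_prod_right'
  calc ∫⁻ s, ‖T (iro hν V (φ s)⁻¹ (cst ν ω))‖ₑ ^ 2 ∂μ
      ≤ ∫⁻ s, (2 * (∑' v, ∫⁻ x, f v (s, x) ∂ν) +
        (2 * (‖T‖ₑ ^ 2 * ENNReal.ofReal (ε ^ 2)) + ‖T‖ₑ ^ 2 * ν X₀ᶜ)) ∂μ := lintegral_mono h1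
    _ = 2 * (∑' v, ∫⁻ s, ∫⁻ x, f v (s, x) ∂ν ∂μ) +
        (2 * (‖T‖ₑ ^ 2 * ENNReal.ofReal (ε ^ 2)) + ‖T‖ₑ ^ 2 * ν X₀ᶜ) * μ univ := by
        rw [lintegral_add_right _ measurable_const, lintegral_const,
          lintegral_const_mul _ (Measurable.ennreal_tsum hg),
          lintegral_tsum fun v => (hg v).aemeasurable]
    _ ≤ _ := by
        have h3 : ∑' v : Λ, ∫⁻ s, ∫⁻ x, f v (s, x) ∂ν ∂μ ≤
            m * ∑' v : Λ, ‖T (cst ν (a v))‖ₑ ^ 2 := by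
          rw [← ENNReal.tsum_mul_left]
          refine ENNReal.tsum_le_tsum fun v => (h2 v).trans_eq ?_
          rw [hζ]
        gcongr

/-- The total mass over a Bessel family. -/
theorem tot_leE {J S κ : Type} [Countable J] [Countable S] [Countable κ] {T : S → K →L[ℂ] K}
    {a : J → K} {C : ℝ≥0∞}
    (hbes : ∀ y : K, ∑' p : J × S, ‖⟪T p.2 (a p.1), y⟫_ℂ‖ₑ ^ 2 ≤ C * ‖y‖ₑ ^ 2) (d : κ → K)
    {B : Lp K 2 ν →L[ℂ] Lp K 2 ν}
    (hB : ∀ A, MeasurableSet A → B * H790.ind ν K A = H790.ind ν K A * B)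
    (hBT : ∀ s, B * (T s).compLpL 2 ν = (T s).compLpL 2 ν * B) :
    ∑' v : J, ∫⁻ x, ms T d (B (Lp.const 2 ν (a v)) x) ∂ν ≤
      C * ∑' k, ‖adjoint B (Lp.const 2 ν (d k))‖ₑ ^ 2 := by
  have hbm : ∀ v, StronglyMeasurable (⇑(B (Lp.const 2 ν (a v)))) := fun v =>
    Lp.stronglyMeasurable _
  have hcm : ∀ k, StronglyMeasurable (⇑(adjoint B (Lp.const 2 ν (d k)))) := fun v =>
    Lp.stronglyMeasurable _
  -- the fibrewise identity
  have key : ∀ (v : J) (k : κ) (s : S),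
      ∫⁻ x, ‖⟪d k, T s (B (Lp.const 2 ν (a v)) x)⟫_ℂ‖ₑ ^ 2 ∂ν =
        ∫⁻ x, ‖⟪T s (a v), adjoint B (Lp.const 2 ν (d k)) x⟫_ℂ‖ₑ ^ 2 ∂ν := by
    intro v k s
    have c0 : (T s).compLpL 2 ν (Lp.const 2 ν (a v)) = Lp.const 2 ν (T s (a v)) := by
      refine Lp.ext ?_
      have c1 : ⇑(Lp.const 2 ν (a v) : Lp K 2 ν) =ᵐ[ν] fun _ => a v := Lp.coeFn_const ..
      have c2 : ⇑(Lp.const 2 ν (T s (a v)) : Lp K 2 ν) =ᵐ[ν] fun _ => T s (a v) :=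
        Lp.coeFn_const ..
      filter_upwards [fld_comp (μ := ν) (T s) (Lp.const 2 ν (a v)), c1, c2] with x h1 h2 h3
      rw [h1, h2, h3]
    have c1 : (T s).compLpL 2 ν (B (Lp.const 2 ν (a v))) = B (Lp.const 2 ν (T s (a v))) := by
      rw [← c0]
      exact (congrArg (fun A : Lp K 2 ν →L[ℂ] Lp K 2 ν => A (Lp.const 2 ν (a v))) (hBT s)).symm
    refine lintegral_congr_ae ?_
    have c2 : ⇑(Lp.const 2 ν (d k) : Lp K 2 ν) =ᵐ[ν] fun _ => d k := Lp.coeFn_const ..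
    have c3 : ⇑(Lp.const 2 ν (T s (a v)) : Lp K 2 ν) =ᵐ[ν] fun _ => T s (a v) :=
      Lp.coeFn_const ..
    filter_upwards [fld_comp (μ := ν) (T s) (B (Lp.const 2 ν (a v))), c2, c3,
      inner_ae hB (Lp.const 2 ν (d k)) (Lp.const 2 ν (T s (a v)))] with x h1 h2 h3 h4
    rw [c1] at h1
    rw [h2, h3] at h4
    rw [← h1, h4, ← inner_conj_symm, RCLike.enorm_conj]
  have hk : ∀ k : κ, ∑' v : J, ∑' s : S,
      ∫⁻ x, ‖⟪d k, T s (B (Lp.const 2 ν (a v)) x)⟫_ℂ‖ₑ ^ 2 ∂ν ≤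
        C * ‖adjoint B (Lp.const 2 ν (d k))‖ₑ ^ 2 := by
    intro k
    simp_rw [key _ k _]
    rw [← ENNReal.tsum_prod (f := fun (v : J) (s : S) =>
      ∫⁻ x, ‖⟪T s (a v), adjoint B (Lp.const 2 ν (d k)) x⟫_ℂ‖ₑ ^ 2 ∂ν)]
    rw [← lintegral_tsum, ← lint_sq, ← lintegral_const_mul _ (((hcm k).enorm).pow_const 2)]
    · exact lintegral_mono fun x => hbes _
    · intro p
      have h1 : StronglyMeasurable fun x => ⟪T p.2 (a p.1),
          adjoint B (Lp.const 2 ν (d k)) x⟫_ℂ :=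
        ((innerSL ℂ (T p.2 (a p.1))).continuous).comp_stronglyMeasurable (hcm k)
      exact (h1.enorm.pow_const 2).aemeasurable
  calc ∑' v : J, ∫⁻ x, ms T d (B (Lp.const 2 ν (a v)) x) ∂ν
      = ∑' v : J, ∑' k : κ, ∑' s : S,
          ∫⁻ x, ‖⟪d k, T s (B (Lp.const 2 ν (a v)) x)⟫_ℂ‖ₑ ^ 2 ∂ν := by
        refine tsum_congr fun v => ?_
        unfold ms
        rw [lintegral_tsum fun k => (Measurable.ennreal_tsum fun s =>
          inn_meas (T s) (d k) (hbm v)).aemeasurable]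
        refine tsum_congr fun k => ?_
        rw [lintegral_tsum fun s => (inn_meas (T s) (d k) (hbm v)).aemeasurable]
    _ = ∑' k : κ, ∑' v : J, ∑' s : S,
          ∫⁻ x, ‖⟪d k, T s (B (Lp.const 2 ν (a v)) x)⟫_ℂ‖ₑ ^ 2 ∂ν := ENNReal.tsum_comm
    _ ≤ ∑' k, C * ‖adjoint B (Lp.const 2 ν (d k))‖ₑ ^ 2 := ENNReal.tsum_le_tsum hk
    _ = _ := ENNReal.tsum_mul_left

/-- The Hilbert-Schmidt count for a Bessel family. -/
theorem hs_leE {J S κ : Type} [Countable J] [Countable S] [Countable κ] {T : S → K →L[ℂ] K}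
    {a : J → K} {C c : ℝ≥0∞}
    (hbes : ∀ y : K, ∑' p : J × S, ‖⟪T p.2 (a p.1), y⟫_ℂ‖ₑ ^ 2 ≤ C * ‖y‖ₑ ^ 2) {d : κ → K}
    (hpar : ∀ y : K, ‖y‖ₑ ^ 2 ≤ c * ∑' (k : κ) (s : S), ‖⟪d k, T s y⟫_ℂ‖ₑ ^ 2)
    {B : Lp K 2 ν →L[ℂ] Lp K 2 ν} (hB : Dcp B)
    (hBT : ∀ s, B * (T s).compLpL 2 ν = (T s).compLpL 2 ν * B) :
    ∑' v : J, ‖B (cst ν (a v))‖ₑ ^ 2 ≤ c * (C * ∑' k : κ, ‖adjoint B (cst ν (d k))‖ₑ ^ 2) := by
  calc ∑' v : J, ‖B (cst ν (a v))‖ₑ ^ 2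
      ≤ ∑' v : J, c * ∫⁻ x, ms T d (B (Lp.const 2 ν (a v)) x) ∂ν := by
        refine ENNReal.tsum_le_tsum fun v => ?_
        rw [enorm_sq_Lp, ← lintegral_const_mul _ (ms_meas T d (Lp.stronglyMeasurable _))]
        exact lintegral_mono fun x => hpar _
    _ = c * ∑' v : J, ∫⁻ x, ms T d (B (Lp.const 2 ν (a v)) x) ∂ν := ENNReal.tsum_mul_left
    _ ≤ _ := by
        gcongr
        exact tot_leE hbes d hB hBT

variable {P : Type} [NormedAddCommGroup P] [ProperSpace P] [MeasurableSpace P] [BorelSpace P]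
  {μ : Measure P} [IsFiniteMeasureOnCompacts μ]

/-- **(ORB) for the induced picture**, any group, a finite family of vectors. -/
theorem orbgf_of {Γ S ι : Type} [Group Γ] [Countable Γ] [Fintype ι]
    [Countable S] {b : E} {n : P → E} {ρ : ℝ} (hn : Continuous n) (hspr : Spr μ b n ρ)
    {W : Set (Lp K 2 ν →L[ℂ] Lp K 2 ν)}
    (hW : ∀ A : Set (E ⧸ Λ), MeasurableSet A → H790.ind ν K A ∈ W) {T : S → K →L[ℂ] K}
    (hWT : ∀ s, (T s).compLpL 2 ν ∈ W) {ω : ι → K} (hω : ∀ i, ‖ω i‖ ≤ 1)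
    {lam : Γ →* (Lp K 2 ν →L[ℂ] Lp K 2 ν)} {d : ι × Γ → K}
    (hd : ∀ i k, lam k (cst ν (ω i)) = cst ν (d (i, k)))
    (hbes : ∀ i, ∀ ε > 0, ∃ (C : ℝ) (a : Λ → K), (∀ v, ‖V v (ω i) - a v‖ ≤ ε) ∧
      ∀ y : K, ∑' p : Λ × S, ‖⟪T p.2 (a p.1), y⟫_ℂ‖ₑ ^ 2 ≤ ENNReal.ofReal C * ‖y‖ₑ ^ 2)
    {c' : ℝ} (hpar : ∀ y : K, ‖y‖ₑ ^ 2 ≤
      ENNReal.ofReal c' * ∑' (k : ι × Γ) (s : S), ‖⟪d k, T s y⟫_ℂ‖ₑ ^ 2)
    (htr : ∀ T', Cm W T' → TRNF lam (fun i => cst ν (ω i)) (adjoint T') =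
      TRNF lam (fun i => cst ν (ω i)) T') :
    ORBGF μ b n ρ (irep hν hVa) lam W fun i => cst ν (ω i) := by
  intro i g δ hδ
  -- the measure on the unit ball
  obtain ⟨μ', hμ'⟩ : ∃ μ' : Measure P, μ' = μ.restrict (Metric.closedBall (0 : P) 1) := ⟨_, rfl⟩
  have hmt : μ' univ ≠ ∞ := by
    rw [hμ', Measure.restrict_apply_univ]
    exact (isCompact_closedBall (0 : P) 1).measure_ne_top
  haveI : IsFiniteMeasure μ' := ⟨lt_top_iff_ne_top.2 hmt⟩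
  obtain ⟨M, hM⟩ : ∃ M : ℝ, M = (μ' univ).toReal := ⟨_, rfl⟩
  have hM0 : 0 ≤ M := by rw [hM]; exact ENNReal.toReal_nonneg
  have hμu : μ' univ = ENNReal.ofReal M := by rw [hM, ENNReal.ofReal_toReal hmt]
  obtain ⟨ε, hε, hε2⟩ : ∃ ε : ℝ, 0 < ε ∧ ε ^ 2 = δ / (4 * (M + 1)) :=
    ⟨Real.sqrt (δ / (4 * (M + 1))), Real.sqrt_pos.2 (by positivity), Real.sq_sqrt (by positivity)⟩
  obtain ⟨C, a, ha, hC⟩ := hbes i ε hε
  obtain ⟨X₀, hX₀c, hX₀m, hX₀⟩ := exists_compact_large Λ ν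
    (show 0 < δ / (2 * (M + 1)) by positivity)
  obtain ⟨C₀, hC₀, hsC₀⟩ := sec_bdd Λ X₀ hX₀c
  have hCC : IsCompact ((fun p : E × E => p.1 * p.2⁻¹) '' (C₀ ×ˢ C₀)) :=
    (hC₀.prod hC₀).image (by fun_prop)
  have hCg : IsCompact ((fun h : E => g⁻¹ * h * g) ''
      ((fun p : E × E => p.1 * p.2⁻¹) '' (C₀ ×ˢ C₀))) := hCC.image (by fun_prop)
  obtain ⟨c, hc⟩ := hspr _ hCg
  refine ⟨c * (2 * (|c'| * |C|)), fun N T' hT' hT'1 => ?_⟩
  have hTd : Dcp T' := fun A hA => hT' _ (hW A hA)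
  obtain ⟨φ, hφ⟩ : ∃ φ : P → E, φ = fun s => g * b ^ N * n s * g⁻¹ := ⟨_, rfl⟩
  have hφm : Measurable φ := by
    rw [hφ]
    exact ((continuous_const.mul hn).mul continuous_const).measurable
  have hm : ∀ (x : E ⧸ Λ) (v : Λ), μ' {s | (coc Λ (φ s) x)⁻¹ = v ∧
      φ s • x ∈ X₀} ≤ ENNReal.ofReal (c * ρ ^ N) := by
    refine mult_param hsC₀ fun s₀ => ?_
    calc μ' {s | φ s * (φ s₀)⁻¹ ∈ (fun p : E × E => p.1 * p.2⁻¹) '' (C₀ ×ˢ C₀)}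
        ≤ μ {s | φ s * (φ s₀)⁻¹ ∈ (fun p : E × E => p.1 * p.2⁻¹) '' (C₀ ×ˢ C₀)} := by
          rw [hμ']
          exact Measure.restrict_apply_le _ _
      _ ≤ μ {s | b ^ N * n s * (b ^ N * n s₀)⁻¹ ∈ (fun h : E => g⁻¹ * h * g) ''
            ((fun p : E × E => p.1 * p.2⁻¹) '' (C₀ ×ˢ C₀))} := by
          refine measure_mono fun s hs => ⟨_, hs, ?_⟩
          rw [hφ]
          group
      _ ≤ _ := hc N s₀
  have h1 := main_paramE hν hVa hφm hTd (hω i) ha hX₀m hm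
  have h2 := hs_leE (J := Λ) hC hpar hTd (fun s => hT' _ (hWT s))
  have h3 : ∑' k : ι × Γ, ‖adjoint T' (cst ν (d k))‖ₑ ^ 2 =
      TRNF lam (fun i => cst ν (ω i)) T' := by
    rw [← htr T' hT', TRNF, ENNReal.tsum_prod', tsum_fintype]
    refine Finset.sum_congr rfl fun i _ => ?_
    rw [TRN]
    refine tsum_congr fun k => ?_
    rw [hd]
  rw [h3] at h2
  have h4 : (2 * (‖T'‖ₑ ^ 2 * ENNReal.ofReal (ε ^ 2)) + ‖T'‖ₑ ^ 2 * ν X₀ᶜ) * μ' univ ≤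
      ENNReal.ofReal δ := by
    have a1 : ‖T'‖ₑ ≤ 1 := by
      rw [← ofReal_norm, ← ENNReal.ofReal_one]
      exact ENNReal.ofReal_le_ofReal hT'1
    have e2 : (2 : ℝ≥0∞) = ENNReal.ofReal 2 := by simp
    calc (2 * (‖T'‖ₑ ^ 2 * ENNReal.ofReal (ε ^ 2)) + ‖T'‖ₑ ^ 2 * ν X₀ᶜ) * μ' univ
        ≤ (2 * (1 ^ 2 * ENNReal.ofReal (ε ^ 2)) + 1 ^ 2 * ENNReal.ofReal (δ / (2 * (M + 1)))) *
          ENNReal.ofReal M := by
          rw [hμu]
          gcongr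
          rw [← ofReal_measureReal]
          exact ENNReal.ofReal_le_ofReal hX₀
      _ = ENNReal.ofReal ((2 * ε ^ 2 + δ / (2 * (M + 1))) * M) := by
          rw [one_pow, one_mul, one_mul, e2, ← ENNReal.ofReal_mul (by norm_num),
            ← ENNReal.ofReal_add (by positivity) (by positivity),
            ← ENNReal.ofReal_mul (by positivity)]
      _ ≤ ENNReal.ofReal δ := by
          refine ENNReal.ofReal_le_ofReal ?_
          rw [hε2]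
          have hM1 : 0 < M + 1 := by positivity
          have e3 : (2 * (δ / (4 * (M + 1))) + δ / (2 * (M + 1))) * M = δ * (M / (M + 1)) := by
            field_simp
            ring
          rw [e3]
          have h5 : M / (M + 1) ≤ 1 := by rw [div_le_one hM1]; linarith
          nlinarith
  have h5 : ∫⁻ s in Metric.closedBall (0 : P) 1,
      ‖T' (irep hν hVa (g * b ^ N * n s * g⁻¹)⁻¹ (cst ν (ω i)))‖ₑ ^ 2 ∂μ =
      ∫⁻ s, ‖T' (iro hν V (φ s)⁻¹ (cst ν (ω i)))‖ₑ ^ 2 ∂μ' := by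
    rw [hμ', hφ]
    rfl
  rw [h5]
  refine h1.trans (add_le_add ?_ h4)
  obtain ⟨τ, hτ⟩ : ∃ τ, τ = TRNF lam (fun i => cst ν (ω i)) T' := ⟨_, rfl⟩
  rw [← hτ] at h2 ⊢
  have e2 : (2 : ℝ≥0∞) = ENNReal.ofReal 2 := by simp
  calc 2 * (ENNReal.ofReal (c * ρ ^ N) * ∑' v : Λ, ‖T' (cst ν (a v))‖ₑ ^ 2)
      ≤ 2 * (ENNReal.ofReal (c * ρ ^ N) *
        (ENNReal.ofReal |c'| * (ENNReal.ofReal |C| * τ))) := by
        gcongr
        refine h2.trans ?_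
        gcongr
        · exact le_abs_self c'
        · exact le_abs_self C
    _ = ENNReal.ofReal (c * ρ ^ N * (2 * (|c'| * |C|))) * τ := by
        rw [ENNReal.ofReal_mul' (q := 2 * (|c'| * |C|)) (by positivity),
          ENNReal.ofReal_mul (p := 2) (by norm_num), ENNReal.ofReal_mul (p := |c'|) (abs_nonneg _),
          ← e2]
        ring
    _ = _ := by
        congr 2
        ring

end gen

end Vale.Agent.P092.H958
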