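import Vale.Agent.P092.H45.Rp.A
import Vale.Agent.P092.UN.StR
import Vale.Agent.P092.H213.Nd.Sc
import Mathlib.LinearAlgebra.Dual.Basis

/-!
P092, project RANK-ALL (helper958), row T4: the rank and restriction of scalars.
-/

set_option linter.all false

open Module Topology

namespace Vale.Agent.P092.H958.Rk

open Vale.Agent.P092.H45.Rp (CS Dg Rat mem_eig exists_basis dg_of_basis)
open Vale.Agent.P092.UN (Split IsLieR)

section split

variable {k L : Type} [Field k] [LieRing L] [LieAlgebra k L]

/-- split elements with rational eigenvalues are split elements -/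
theorem split_of_cs [Module.Finite k L] {r : ℕ} (h : CS k (L := L) r) : Split k L r := by
  obtain ⟨s, hc, hd, hr, hli⟩ := h
  obtain ⟨b, l, hb⟩ := exists_basis (n := finrank k L) rfl s hc hd hr
  exact ⟨s, hli, hc, fun i => ⟨finrank k L, b, fun j => ⟨_, hb j i⟩⟩⟩

end split

section alg

variable {K k L : Type} [Field K] [Field k] [Algebra K k] [LieRing L] [LieAlgebra k L]
  [LieAlgebra K L] [IsScalarTower K k L]

theorem dg_up {h : L} (hd : Dg K h) : Dg k h := by
  unfold Dg at hd ⊢
  rw [eq_top_iff]
  intro y _
  have hy : y ∈ ⨆ μ : K, (LieAlgebra.ad K L h).eigenspace μ := by rw [hd]; trivial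
  induction hy using Submodule.iSup_induction' with
  | mem μ y hy =>
    refine Submodule.mem_iSup_of_mem (algebraMap K k μ) (mem_eig.2 ?_)
    rw [mem_eig.1 hy, algebraMap_smul]
  | zero => exact Submodule.zero_mem _
  | add u v _ _ hu hv => exact Submodule.add_mem _ (hu trivial) (hv trivial)

theorem rat_up [CharZero K] {h : L} (hd : Dg K h) (hr : Rat K h) : Rat k h := by
  intro μ y hy hμ
  by_contra hcon
  push Not at hcon
  have h1 := (LieAlgebra.ad k L h).eigenspaces_iSupIndep μ
  have h2 : (⊤ : Submodule k L) ≤ ⨆ ν, ⨆ _ : ν ≠ μ, (LieAlgebra.ad k L h).eigenspace ν := by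
    intro z _
    have hz : z ∈ ⨆ ν : K, (LieAlgebra.ad K L h).eigenspace ν := by
      have h3 := hd
      unfold Dg at h3
      rw [h3]; trivial
    induction hz using Submodule.iSup_induction' with
    | mem ν z hz =>
      by_cases h0 : z = 0
      · rw [h0]; exact Submodule.zero_mem _
      · obtain ⟨q, hq⟩ := hr ν z h0 (mem_eig.1 hz)
        have h4 : (algebraMap K k ν) ≠ μ := by
          rw [← hq, map_ratCast]
          exact hcon q
        refine Submodule.mem_iSup_of_mem (algebraMap K k ν)
          (Submodule.mem_iSup_of_mem h4 (mem_eig.2 ?_))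
        rw [mem_eig.1 hz, algebraMap_smul]
    | zero => exact Submodule.zero_mem _
    | add u v _ _ hu hv => exact Submodule.add_mem _ (hu trivial) (hv trivial)
  have h3 := h1.mono_right h2
  rw [disjoint_top] at h3
  exact hy (by
    have : y ∈ (LieAlgebra.ad k L h).eigenspace μ := mem_eig.2 hμ
    rwa [h3] at this)

theorem dg_down [CharZero K] {h : L} (hd : Dg k h) (hr : Rat k h) : Dg K h := by
  unfold Dg at hd ⊢
  rw [eq_top_iff]
  intro y _
  have hy : y ∈ ⨆ μ : k, (LieAlgebra.ad k L h).eigenspace μ := by rw [hd]; trivial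
  induction hy using Submodule.iSup_induction' with
  | mem μ y hy =>
    by_cases h0 : y = 0
    · rw [h0]; exact Submodule.zero_mem _
    · obtain ⟨q, hq⟩ := hr μ y h0 (mem_eig.1 hy)
      refine Submodule.mem_iSup_of_mem (q : K) (mem_eig.2 ?_)
      rw [mem_eig.1 hy, ← hq, ← algebraMap_smul k (q : K) y, map_ratCast]
  | zero => exact Submodule.zero_mem _
  | add u v _ _ hu hv => exact Submodule.add_mem _ (hu trivial) (hv trivial)

theorem rat_down [CharZero K] {h : L} (hr : Rat k h) : Rat K h := by
  intro μ y hy hμ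
  obtain ⟨q, hq⟩ := hr (algebraMap K k μ) y hy (by rw [hμ, algebraMap_smul])
  refine ⟨q, (algebraMap K k).injective ?_⟩
  rw [map_ratCast, hq]

theorem li_up [CharZero K] [Module.Finite k L] (hz : ∀ x : L, (∀ y : L, ⁅x, y⁆ = 0) → x = 0) {r : ℕ}
    (s : Fin r → L) (hc : ∀ i j, ⁅s i, s j⁆ = 0) (hd : ∀ i, Dg k (s i)) (hr : ∀ i, Rat k (s i))
    (hli : LinearIndependent K s) : LinearIndependent k s := by
  obtain ⟨b, l, hb⟩ := exists_basis (n := finrank k L) rfl s hc hd hr
  rw [Fintype.linearIndependent_iff]
  intro c hc0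
  have h1 : ∀ i, ∑ j, c j * ((l i j : ℚ) : k) = 0 := by
    intro i
    have h2 : ⁅∑ j, c j • s j, b i⁆ = 0 := by rw [hc0, zero_lie]
    rw [sum_lie] at h2
    simp only [smul_lie, hb, smul_smul] at h2
    rw [← Finset.sum_smul] at h2
    exact (smul_eq_zero.1 h2).resolve_right (b.ne_zero i)
  intro j0
  by_contra hne
  obtain ⟨f, hf⟩ : ∃ f : Dual K k, f (c j0) ≠ 0 := by
    by_contra hcon
    push Not at hcon
    exact hne ((Module.forall_dual_apply_eq_zero_iff K (c j0)).1 hcon)
  have h3 : ∀ i, ∑ j, f (c j) * ((l i j : ℚ) : K) = 0 := by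
    intro i
    have h4 := congrArg f (h1 i)
    rw [map_sum, map_zero] at h4
    rw [← h4]
    refine Finset.sum_congr rfl fun j _ => ?_
    rw [show c j * ((l i j : ℚ) : k) = ((l i j : ℚ) : K) • c j by
      rw [Algebra.smul_def, map_ratCast, mul_comm], map_smul, smul_eq_mul, mul_comm]
  have h4 : ∑ j, f (c j) • s j = 0 := by
    apply hz
    have h5 : LieAlgebra.ad k L (∑ j, f (c j) • s j) = 0 := by
      refine b.ext fun i => ?_
      rw [LieAlgebra.ad_apply, sum_lie, LinearMap.zero_apply]
      have h6 : ∀ j, ⁅f (c j) • s j, b i⁆ = ((algebraMap K k) (f (c j) * ((l i j : ℚ) : K))) •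
          b i := by
        intro j
        rw [smul_lie, hb, map_mul, map_ratCast, mul_smul, algebraMap_smul]
      simp only [h6]
      rw [← Finset.sum_smul, ← map_sum, h3 i, map_zero, zero_smul]
    intro y
    have h6 := LinearMap.congr_fun h5 y
    rwa [LieAlgebra.ad_apply, LinearMap.zero_apply] at h6
  exact hf (Fintype.linearIndependent_iff.1 hli _ h4 j0)

/-- **(T4)**: the rank does not change under restriction of scalars. -/
theorem cs_iff [CharZero K] [Module.Finite k L] (hz : ∀ x : L, (∀ y : L, ⁅x, y⁆ = 0) → x = 0)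
    {r : ℕ} : CS k (L := L) r ↔ CS K (L := L) r := by
  constructor
  · rintro ⟨s, hc, hd, hr, hli⟩
    exact ⟨s, hc, fun i => dg_down (hd i) (hr i), fun i => rat_down (hr i),
      hli.restrict_scalars (by
        intro a a' haa
        exact (algebraMap K k).injective (by
          rw [Algebra.algebraMap_eq_smul_one, Algebra.algebraMap_eq_smul_one]
          exact haa))⟩
  · rintro ⟨s, hc, hd, hr, hli⟩
    have hd' := fun i => dg_up (k := k) (hd i)
    have hr' := fun i => rat_up (k := k) (hd i) (hr i)
    exact ⟨s, hc, hd', hr', li_up hz s hc hd' hr' hli⟩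

end alg

section top

variable {K k G : Type} [NontriviallyNormedField K] [CompleteSpace K] [NontriviallyNormedField k]
  [NormedAlgebra K k] [FiniteDimensional K k] [Group G] [TopologicalSpace G]

/-- **Restriction of scalars** with the rank; `hS` is the theorem that a simple Lie algebra with `m`
independent commuting diagonalizable elements has `m` of them with rational eigenvalues. -/
theorem isLieR_restrict [CharZero K] {r : ℕ}
    (hS : ∀ (F L : Type) [Field F] [CharZero F] [LieRing L] [LieAlgebra F L] [Module.Finite F L],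
      LieAlgebra.IsSimple F L → ∀ m, Split F L m → CS F (L := L) m)
    (h : IsLieR k G r) : IsLieR K G r := by
  obtain ⟨L, i1, i2, n, b, ρ, hs, ⟨x, hx, ψ, hψ⟩, hl, hf, he, hr1, hr2⟩ := h
  letI mK : Module K L := Module.compHom L (algebraMap K k)
  haveI : IsScalarTower K k L := ⟨fun q a v => by
    show (q • a) • v = (algebraMap K k q) • (a • v)
    rw [Algebra.smul_def, mul_smul]⟩
  letI lK : LieAlgebra K L :=
    { mK with
      lie_smul := fun q x y => by
        show ⁅x, (algebraMap K k q) • y⁆ = (algebraMap K k q) • ⁅x, y⁆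
        rw [lie_smul] }
  haveI hkz : CharZero k := charZero_of_injective_algebraMap (algebraMap K k).injective
  haveI hfk : Module.Finite k L := Module.Finite.of_basis b
  haveI hfK : Module.Finite K L := Module.Finite.trans k L
  have hsK := Vale.Agent.P092.H213.Nd.simple_restrict K hs
  have hz : ∀ x : L, (∀ y : L, ⁅x, y⁆ = 0) → x = 0 := by
    intro x hx
    refine Vale.Agent.P092.H213.Nd.center_eq (k := k) hs fun y => ?_
    rw [← lie_skew, hx, neg_zero]
  have hcs : ∀ m, Split k L m ↔ Split K L m := fun m =>
    ⟨fun h => split_of_cs ((cs_iff hz).1 (hS k L hs m h)),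
      fun h => split_of_cs ((cs_iff (k := k) hz).2 (hS K L hsK m h))⟩
  set e := Module.finBasis K k with he'
  set b' : Basis (Fin (finrank K k) × Fin n) K L := e.smulTower b with hb'
  set ρ' : G →* Module.End K L :=
    { toFun := fun g => (ρ g).restrictScalars K
      map_one' := by rw [map_one]; rfl
      map_mul' := fun g h => by rw [map_mul]; rfl } with hρ'
  have hρa : ∀ g (v : L), ρ' g v = ρ g v := fun g v => rfl
  refine ⟨L, i1, lK, finrank K k * n, b'.reindex finProdFinEquiv, ρ', hsK,
    ⟨x, hx, ψ, (Vale.Agent.P092.H213.Nd.isExp_restrict (K := K) (k := k) x ψ).2 hψ⟩, hl,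
    fun y φ hφ => ?_, ?_, (hcs r).1 hr1, fun h => hr2 ((hcs (r + 1)).2 h)⟩
  · exact hf y φ ((Vale.Agent.P092.H213.Nd.isExp_restrict (K := K) (k := k) y φ).1 hφ)
  · let Ψ : (Fin n → Fin n → k) →ₗ[K]
        (Fin (finrank K k * n) → Fin (finrank K k * n) → K) :=
      { toFun := fun M I J => e.repr (e (finProdFinEquiv.symm J).1 *
          M (finProdFinEquiv.symm I).2 (finProdFinEquiv.symm J).2) (finProdFinEquiv.symm I).1
        map_add' := fun M N => by
          funext I J
          simp only [Pi.add_apply, mul_add, map_add, Finsupp.add_apply]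
        map_smul' := fun c M => by
          funext I J
          simp only [Pi.smul_apply, RingHom.id_apply, mul_smul_comm, map_smul,
            Finsupp.smul_apply] }
    have hker : LinearMap.ker Ψ = ⊥ := by
      rw [LinearMap.ker_eq_bot']
      intro M hM
      funext i j
      rw [Pi.zero_apply, Pi.zero_apply]
      have h1 : ∀ a c, e.repr (e c * M i j) a = 0 := by
        intro a c
        have := congrFun (congrFun hM (finProdFinEquiv (a, i))) (finProdFinEquiv (c, j))
        simp only [Ψ, LinearMap.coe_mk, AddHom.coe_mk, Equiv.symm_apply_apply,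
          Pi.zero_apply] at this
        exact this
      have h2 : ∀ c, e c * M i j = 0 := fun c => by
        apply e.repr.injective
        rw [map_zero]
        exact Finsupp.ext fun a => h1 a c
      by_contra hne
      have h3 : ∀ c, e c = 0 := fun c => (mul_eq_zero.1 (h2 c)).resolve_right hne
      have hpos : 0 < finrank K k := finrank_pos
      exact e.ne_zero ⟨0, hpos⟩ (h3 _)
    have hΨ : IsClosedEmbedding Ψ := LinearMap.isClosedEmbedding_of_injective hker
    have h1 := hΨ.isEmbedding.comp he
    have e1 : (fun g (I J : Fin (finrank K k * n)) =>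
        (b'.reindex finProdFinEquiv).repr (ρ' g ((b'.reindex finProdFinEquiv) J)) I) =
        ⇑Ψ ∘ fun g (i j : Fin n) => b.repr (ρ g (b j)) i := by
      funext g I J
      rw [Basis.repr_reindex_apply, Basis.reindex_apply, hb', Basis.smulTower_apply,
        Basis.smulTower_repr, hρa]
      show _ = e.repr (e (finProdFinEquiv.symm J).1 *
        (b.repr (ρ g (b (finProdFinEquiv.symm J).2)) (finProdFinEquiv.symm I).2)) _
      rw [map_smul, map_smul, Finsupp.smul_apply, smul_eq_mul]
    rw [e1]
    exact h1

end top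

end Vale.Agent.P092.H958.Rk
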